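import Mathlib

/-! The cubic identity: positive measure-valued potentials of a symmetric sub-Markov kernel have
small variation of their distribution functions across edges. -/

namespace Vale.Agent.P125.GC

open Finset

/-- Suffix sum. -/
def suf (n : ℕ) (m : ℕ → ℝ) (i : ℕ) : ℝ := ∑ a ∈ Ico i n, m a

/-- Prefix sum. -/
def pre (u : ℕ → ℝ) (a : ℕ) : ℝ := ∑ i ∈ range (a + 1), u i

theorem sum_pre_mul (n : ℕ) (u m : ℕ → ℝ) :
    ∑ a ∈ range n, pre u a * m a = ∑ i ∈ range n, u i * suf n m i := by
  simp only [pre, suf, sum_mul, mul_sum, range_eq_Ico]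
  rw [Finset.sum_Ico_Ico_comm]

theorem abs_pre_le (n : ℕ) (u : ℕ → ℝ) {a : ℕ} (ha : a < n) :
    |pre u a| ≤ ∑ i ∈ range n, |u i| :=
  (abs_sum_le_sum_abs _ _).trans
    (sum_le_sum_of_subset_of_nonneg (range_subset_range.2 ha) fun i _ _ => abs_nonneg _)

theorem cube_suf_le (n : ℕ) (m v : ℕ → ℝ) (hm : ∀ a, 0 ≤ m a) (hv : ∀ a, 0 ≤ v a) (i : ℕ) :
    (max (suf n m i - suf n v i) 0) ^ 3 / 3 ≤
      ∑ a ∈ range n, m a * (suf n m a - suf n v a) ^ 2 := by
  set c := suf n v i with hc
  have key : ∀ d a : ℕ, i ≤ a → n ≤ a + d → (max (suf n m a - c) 0) ^ 3 / 3 ≤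
      ∑ b ∈ Ico a n, m b * (suf n m b - suf n v b) ^ 2 := by
    intro d
    induction d with
    | zero =>
      intro a _ ha
      have : 0 ≤ c := sum_nonneg fun b _ => hv b
      simp [suf, Ico_eq_empty_of_le (by omega : n ≤ a), this]
    | succ d ih =>
      intro a hia ha
      by_cases han : n ≤ a
      · exact ih a hia (by omega)
      · push Not at han
        rw [sum_eq_sum_Ico_succ_bot han]
        have h1 := ih (a + 1) (by omega) (by omega)
        have hs : suf n m a = m a + suf n m (a + 1) := sum_eq_sum_Ico_succ_bot han _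
        by_cases hpos : suf n m a - c ≤ 0
        · rw [max_eq_right hpos]
          have h2 : 0 ≤ ∑ b ∈ Ico (a + 1) n, m b * (suf n m b - suf n v b) ^ 2 :=
            sum_nonneg fun b _ => mul_nonneg (hm b) (sq_nonneg _)
          have h3 : 0 ≤ m a * (suf n m a - suf n v a) ^ 2 := mul_nonneg (hm a) (sq_nonneg _)
          norm_num
          linarith
        · push Not at hpos
          rw [max_eq_left hpos.le]
          have hle : suf n v a ≤ c :=
            sum_le_sum_of_subset_of_nonneg (Ico_subset_Ico hia le_rfl) fun b _ _ => hv b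
          set t := suf n m a - c with ht
          set t' := max (suf n m (a + 1) - c) 0 with ht'
          have ht0 : 0 ≤ t' := le_max_right _ _
          have htt : t' ≤ t := max_le (by simp only [ht]; linarith [hm a]) hpos.le
          have hd : t - t' ≤ m a := by
            have : suf n m (a + 1) - c ≤ t' := le_max_left _ _
            simp only [ht]; linarith
          have hsq : t ^ 2 ≤ (suf n m a - suf n v a) ^ 2 :=
            pow_le_pow_left₀ hpos.le (by simp only [ht]; linarith) 2
          have hcube : t ^ 3 - t' ^ 3 ≤ 3 * t ^ 2 * (t - t') := by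
            nlinarith [mul_nonneg (sq_nonneg (t - t')) (by linarith : (0:ℝ) ≤ 2 * t + t')]
          have h2 : t ^ 2 * (t - t') ≤ m a * (suf n m a - suf n v a) ^ 2 := by
            calc t ^ 2 * (t - t') ≤ t ^ 2 * m a := mul_le_mul_of_nonneg_left hd (sq_nonneg t)
              _ ≤ (suf n m a - suf n v a) ^ 2 * m a := mul_le_mul_of_nonneg_right hsq (hm a)
              _ = _ := mul_comm _ _
          linarith
  calc _ ≤ ∑ b ∈ Ico i n, m b * (suf n m b - suf n v b) ^ 2 := key n i le_rfl (by omega)
    _ ≤ _ := sum_le_sum_of_subset_of_nonneg (by intro b hb; simp at hb ⊢; omega)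
        fun b _ _ => mul_nonneg (hm b) (sq_nonneg _)

theorem abs_cube_suf_le (n : ℕ) (m v : ℕ → ℝ) (hm : ∀ a, 0 ≤ m a) (hv : ∀ a, 0 ≤ v a) (i : ℕ) :
    |suf n m i - suf n v i| ^ 3 / 3 ≤
      ∑ a ∈ range n, m a * (suf n m a - suf n v a) ^ 2 +
        ∑ a ∈ range n, v a * (suf n m a - suf n v a) ^ 2 := by
  have hA : 0 ≤ ∑ a ∈ range n, m a * (suf n m a - suf n v a) ^ 2 :=
    sum_nonneg fun b _ => mul_nonneg (hm b) (sq_nonneg _)
  have hB : 0 ≤ ∑ a ∈ range n, v a * (suf n m a - suf n v a) ^ 2 :=
    sum_nonneg fun b _ => mul_nonneg (hv b) (sq_nonneg _)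
  rcases le_total (suf n v i) (suf n m i) with h | h
  · have h1 := cube_suf_le n m v hm hv i
    rw [max_eq_left (by linarith)] at h1
    rw [abs_of_nonneg (by linarith)]
    linarith
  · have h1 := cube_suf_le n v m hv hm i
    rw [max_eq_left (by linarith)] at h1
    rw [abs_of_nonpos (by linarith), neg_sub]
    have : ∑ a ∈ range n, v a * (suf n v a - suf n m a) ^ 2 =
        ∑ a ∈ range n, v a * (suf n m a - suf n v a) ^ 2 := sum_congr rfl fun a _ => by ring
    linarith

theorem le_cube_young {d lam : ℝ} (hd : 0 ≤ d) (hl : 0 < lam) :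
    d ≤ d ^ 3 / 3 / lam ^ 2 + lam := by
  rw [le_iff_eq_or_lt]
  by_cases h : d ≤ lam
  · rcases eq_or_lt_of_le h with h | h
    · right
      have : 0 < d ^ 3 / 3 / lam ^ 2 := by rw [h]; positivity
      linarith
    · right
      have : 0 ≤ d ^ 3 / 3 / lam ^ 2 := by positivity
      linarith
  · push Not at h
    right
    have h2 : (d - lam) * lam ^ 2 < d ^ 3 / 3 := by
      nlinarith [mul_pos hl (sq_pos_of_pos hl), mul_nonneg (sq_nonneg (d - lam))
        (by linarith : (0:ℝ) ≤ d + 2 * lam)]
    have h3 : d - lam < d ^ 3 / 3 / lam ^ 2 := by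
      rw [lt_div_iff₀ (by positivity)]; exact h2
    linarith

variable {S : Type*} [Fintype S]

/-- Variation of positive potentials across edges, tested against prefix sums of `ℓ¹` vectors. -/
theorem edge_variation (pi : S → ℝ) (K : S → S → ℝ) (hpi : ∀ x, 0 ≤ pi x)
    (hK : ∀ x y, 0 ≤ K x y) (hbal : ∀ x y, pi x * K x y = pi y * K y x)
    (hrow : ∀ x, ∑ y, K x y ≤ 1) (n : ℕ) (m : S → ℕ → ℝ) (hm : ∀ x a, 0 ≤ m x a)
    (B : ℝ) (hB : ∀ x, ∑ a ∈ range n, m x a ≤ B) (e : S → ℝ)
    (he : ∀ x, ∑ a ∈ range n, |m x a - ∑ y, K x y * m y a| ≤ e x)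
    (c : S → S → ℝ) (hc0 : ∀ x y, 0 ≤ c x y) (hc1 : ∀ x y, c x y ≤ 1)
    (u : S → S → ℕ → ℝ) (hu : ∀ x y, ∑ i ∈ range n, |u x y i| ≤ c x y)
    (lam : ℝ) (hl : 0 < lam) :
    ∑ x, ∑ y, pi x * K x y * |∑ a ∈ range n, pre (u x y) a * (m y a - m x a)| ≤
      6 * B ^ 2 * (∑ x, pi x * e x) / lam ^ 2 + lam * ∑ x, ∑ y, pi x * K x y * c x y := by
  set W : S → ℕ → ℝ := fun x a => suf n (m x) a with hW
  set Q : S → S → ℝ := fun x y => ∑ a ∈ range n, m x a * (W x a - W y a) ^ 2 with hQ
  have hQ0 : ∀ x y, 0 ≤ Q x y := fun x y =>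
    sum_nonneg fun a _ => mul_nonneg (hm x a) (sq_nonneg _)
  have hWB : ∀ x a, |W x a| ≤ B := fun x a => by
    simp only [hW, suf]
    rw [abs_of_nonneg (sum_nonneg fun b _ => hm x b)]
    exact le_trans (sum_le_sum_of_subset_of_nonneg (by intro b hb; simp at hb ⊢; omega)
      fun b _ _ => hm x b) (hB x)
  have hWe : ∀ x a, |W x a - ∑ y, K x y * W y a| ≤ e x := fun x a => by
    have : W x a - ∑ y, K x y * W y a = ∑ b ∈ Ico a n, (m x b - ∑ y, K x y * m y b) := by
      simp only [hW, suf, mul_sum, sum_sub_distrib]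
      rw [sum_comm]
    rw [this]
    exact (abs_sum_le_sum_abs _ _).trans (le_trans
      (sum_le_sum_of_subset_of_nonneg (by intro b hb; simp at hb ⊢; omega)
        fun b _ _ => abs_nonneg _) (he x))
  have main : ∑ x, ∑ y, pi x * K x y * Q x y ≤ 3 * B ^ 2 * ∑ x, pi x * e x := by
    have hsq : ∀ x a, ∑ y, K x y * (W x a - W y a) ^ 2 ≤
        2 * W x a * (W x a - ∑ y, K x y * W y a) +
          (∑ y, K x y * W y a ^ 2 - W x a ^ 2) := by
      intro x a
      have e1 : ∑ y, K x y * (W x a - W y a) ^ 2 =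
          (∑ y, K x y) * W x a ^ 2 - 2 * W x a * (∑ y, K x y * W y a) +
            ∑ y, K x y * W y a ^ 2 := by
        simp only [sum_mul, mul_sum]
        rw [← sum_sub_distrib, ← sum_add_distrib]
        exact sum_congr rfl fun y _ => by ring
      rw [e1]
      nlinarith [mul_le_mul_of_nonneg_right (hrow x) (sq_nonneg (W x a))]
    have step : ∑ x, ∑ y, pi x * K x y * Q x y ≤
        ∑ a ∈ range n, ∑ x, pi x * (2 * |W x a| * e x * m x a) +
        ∑ a ∈ range n, ∑ x, pi x * m x a * (∑ y, K x y * W y a ^ 2 - W x a ^ 2) := by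
      rw [← sum_add_distrib]
      simp only [hQ, mul_sum, ← sum_add_distrib]
      rw [sum_comm (s := range n)]
      refine sum_le_sum fun x _ => ?_
      rw [sum_comm]
      refine sum_le_sum fun a _ => ?_
      have h2 : 2 * W x a * (W x a - ∑ y, K x y * W y a) ≤ 2 * |W x a| * e x := by
        calc _ ≤ |2 * W x a * (W x a - ∑ y, K x y * W y a)| := le_abs_self _
          _ ≤ _ := by
            rw [abs_mul, abs_mul, abs_two]
            exact mul_le_mul_of_nonneg_left (hWe x a) (by positivity)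
      calc ∑ y, pi x * K x y * (m x a * (W x a - W y a) ^ 2)
          = pi x * m x a * ∑ y, K x y * (W x a - W y a) ^ 2 := by
            rw [mul_sum]; exact sum_congr rfl fun y _ => by ring
        _ ≤ pi x * m x a * (2 * |W x a| * e x +
              (∑ y, K x y * W y a ^ 2 - W x a ^ 2)) :=
            mul_le_mul_of_nonneg_left (le_trans (hsq x a) (by linarith))
              (mul_nonneg (hpi x) (hm x a))
        _ = _ := by ring
    have swap : ∀ a, ∑ x, pi x * m x a * (∑ y, K x y * W y a ^ 2) =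
        ∑ x, pi x * (∑ y, K x y * m y a) * W x a ^ 2 := fun a => by
      simp only [mul_sum, sum_mul]
      rw [sum_comm]
      refine sum_congr rfl fun x _ => sum_congr rfl fun y _ => ?_
      calc pi y * m y a * (K y x * W x a ^ 2) = (pi y * K y x) * (m y a * W x a ^ 2) := by ring
        _ = _ := by rw [← hbal x y]; ring
    have hb : ∀ x a, |W x a| ^ 2 ≤ B ^ 2 := fun x a => pow_le_pow_left₀ (abs_nonneg _) (hWB x a) 2
    have bound1 : ∑ a ∈ range n, ∑ x, pi x * (2 * |W x a| * e x * m x a) ≤
        2 * B ^ 2 * ∑ x, pi x * e x := by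
      rw [sum_comm, mul_sum]
      refine sum_le_sum fun x _ => ?_
      have he0 : 0 ≤ e x := le_trans (abs_nonneg _) (hWe x 0)
      have hB0 : 0 ≤ B := le_trans (abs_nonneg _) (hWB x 0)
      calc _ ≤ ∑ a ∈ range n, pi x * (2 * B * e x) * m x a := by
            refine sum_le_sum fun a _ => ?_
            rw [← mul_assoc]
            exact mul_le_mul_of_nonneg_right (mul_le_mul_of_nonneg_left
              (mul_le_mul_of_nonneg_right (by linarith [hWB x a]) he0) (hpi x)) (hm x a)
        _ ≤ pi x * (2 * B * e x) * B := by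
            rw [← mul_sum]
            exact mul_le_mul_of_nonneg_left (hB x)
              (mul_nonneg (hpi x) (mul_nonneg (by linarith) he0))
        _ = _ := by ring
    have bound2 : ∑ a ∈ range n, ∑ x, pi x * m x a * (∑ y, K x y * W y a ^ 2 - W x a ^ 2) ≤
        B ^ 2 * ∑ x, pi x * e x := by
      simp only [mul_sub, sum_sub_distrib]
      simp only [swap, ← sum_sub_distrib]
      rw [sum_comm, mul_sum]
      refine sum_le_sum fun x _ => ?_
      calc ∑ a ∈ range n, (pi x * (∑ y, K x y * m y a) * W x a ^ 2 - pi x * m x a * W x a ^ 2)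
          ≤ ∑ a ∈ range n, pi x * B ^ 2 * |m x a - ∑ y, K x y * m y a| := by
            refine sum_le_sum fun a _ => ?_
            have h1 : ((∑ y, K x y * m y a) - m x a) * W x a ^ 2 ≤
                |m x a - ∑ y, K x y * m y a| * B ^ 2 := by
              rw [← sq_abs (W x a)]
              calc _ ≤ |m x a - ∑ y, K x y * m y a| * |W x a| ^ 2 :=
                    mul_le_mul_of_nonneg_right (by rw [abs_sub_comm]; exact le_abs_self _)
                      (sq_nonneg _)
                _ ≤ _ := mul_le_mul_of_nonneg_left (hb x a) (abs_nonneg _)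
            nlinarith [mul_le_mul_of_nonneg_left h1 (hpi x)]
        _ ≤ _ := by
            rw [← mul_sum]
            calc _ ≤ pi x * B ^ 2 * e x :=
                  mul_le_mul_of_nonneg_left (he x) (mul_nonneg (hpi x) (sq_nonneg B))
              _ = _ := by ring
    calc _ ≤ _ := step
      _ ≤ _ := add_le_add bound1 bound2
      _ = _ := by ring
  have main' : ∑ x, ∑ y, pi x * K x y * Q y x ≤ 3 * B ^ 2 * ∑ x, pi x * e x := by
    rw [sum_comm]
    calc _ = ∑ y, ∑ x, pi y * K y x * Q y x :=
          sum_congr rfl fun y _ => sum_congr rfl fun x _ => by rw [hbal x y]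
      _ ≤ _ := main
  have point : ∀ x y, |∑ a ∈ range n, pre (u x y) a * (m y a - m x a)| ≤
      (Q x y + Q y x) / lam ^ 2 + lam * c x y := by
    intro x y
    have hd : ∀ i, |suf n (fun a => m y a - m x a) i| ≤ (Q x y + Q y x) / lam ^ 2 + lam := by
      intro i
      have hsuf : suf n (fun a => m y a - m x a) i = suf n (m y) i - suf n (m x) i := by
        simp [suf, sum_sub_distrib]
      rw [hsuf]
      refine (le_cube_young (abs_nonneg _) hl).trans (add_le_add_left ?_ _ |>.trans' le_rfl)
      refine div_le_div_of_nonneg_right ?_ (sq_nonneg lam)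
      calc _ ≤ _ := abs_cube_suf_le n (m y) (m x) (hm y) (hm x) i
        _ = Q x y + Q y x := by
          simp only [hQ, hW]
          rw [add_comm]
          congr 1
          exact sum_congr rfl fun a _ => by ring
    rw [sum_pre_mul]
    calc _ ≤ ∑ i ∈ range n, |u x y i * suf n (fun a => m y a - m x a) i| := abs_sum_le_sum_abs _ _
      _ ≤ ∑ i ∈ range n, |u x y i| * ((Q x y + Q y x) / lam ^ 2 + lam) :=
          sum_le_sum fun i _ => by
            rw [abs_mul]; exact mul_le_mul_of_nonneg_left (hd i) (abs_nonneg _)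
      _ ≤ c x y * ((Q x y + Q y x) / lam ^ 2 + lam) := by
          rw [← sum_mul]
          exact mul_le_mul_of_nonneg_right (hu x y)
            (add_nonneg (div_nonneg (add_nonneg (hQ0 x y) (hQ0 y x)) (sq_nonneg _)) hl.le)
      _ ≤ _ := by
          have h0 : 0 ≤ (Q x y + Q y x) / lam ^ 2 :=
            div_nonneg (add_nonneg (hQ0 x y) (hQ0 y x)) (sq_nonneg _)
          nlinarith [mul_le_mul_of_nonneg_right (hc1 x y) h0]
  calc _ ≤ ∑ x, ∑ y, pi x * K x y * ((Q x y + Q y x) / lam ^ 2 + lam * c x y) :=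
        sum_le_sum fun x _ => sum_le_sum fun y _ =>
          mul_le_mul_of_nonneg_left (point x y) (mul_nonneg (hpi x) (hK x y))
    _ = ((∑ x, ∑ y, pi x * K x y * Q x y) + ∑ x, ∑ y, pi x * K x y * Q y x) / lam ^ 2 +
        lam * ∑ x, ∑ y, pi x * K x y * c x y := by
        simp only [← sum_add_distrib, sum_div, mul_sum]
        exact sum_congr rfl fun x _ => sum_congr rfl fun y _ => by ring
    _ ≤ _ := by
        refine add_le_add ?_ le_rfl
        refine div_le_div_of_nonneg_right ?_ (sq_nonneg lam)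
        linarith

end Vale.Agent.P125.GC
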