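import Vale.Agent.P125.GC.Path
import Vale.Agent.P125.GC.Cubic

/-! The tilted third moment bound for one weight class. -/

namespace Vale.Agent.P125.GC

open Finset

variable {S : Type*}

/-- An antisymmetric edge function with `ℓ¹` norm at most a symmetric weight `c ≤ 1`. -/
structure Edge (S : Type*) (n : ℕ) where
  c : S → S → ℝ
  u : S → S → ℕ → ℝ
  c0 : ∀ x y, 0 ≤ c x y
  c1 : ∀ x y, c x y ≤ 1
  csymm : ∀ x y, c x y = c y x
  anti : ∀ x y i, u y x i = -u x y i
  hu : ∀ x y, ∑ i ∈ range n, |u x y i| ≤ c x y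

variable {n : ℕ} (E : Edge S n)

/-- Prefix sums of one step. -/
def gs (e : S × S) (a : ℕ) : ℝ := pre (E.u e.1 e.2) a
/-- Variation of one step. -/
def al (e : S × S) (a : ℕ) : ℝ := |E.u e.1 e.2 a|
/-- Weight of one step. -/
def cw (e : S × S) : ℝ := E.c e.1 e.2

/-- Number of visits. -/
def cnt : List (S × S) → ℝ
  | [] => 0
  | e :: l => cw E e + cnt l
/-- Tilting weight. -/
def wt (eps : ℝ) : List (S × S) → ℝ
  | [] => 1
  | e :: l => (1 - eps * cw E e) * wt eps l
/-- Prefix sum of the path. -/
def Sg : List (S × S) → ℕ → ℝ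
  | [], _ => 0
  | e :: l, a => gs E e a + Sg l a
/-- Variation of the path. -/
def Al : List (S × S) → ℕ → ℝ
  | [], _ => 0
  | e :: l, a => al E e a + Al l a
/-- Pairs of a prefix sum and a later variation. -/
def Zl : List (S × S) → ℕ → ℝ
  | [], _ => 0
  | e :: l, a => Zl l a + gs E e a * Al E l a
/-- Pairs of a variation and a later prefix sum. -/
def Wl : List (S × S) → ℕ → ℝ
  | [], _ => 0
  | e :: l, a => Wl l a + al E e a * Sg E l a
/-- Triples whose variation comes first. -/
def Rf : List (S × S) → ℝ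
  | [] => 0
  | e :: l => Rf l + ∑ a ∈ range n, al E e a * Sg E l a ^ 2
/-- Triples whose variation comes last. -/
def Rb : List (S × S) → ℝ
  | [] => 0
  | e :: l => Rb l + ∑ a ∈ range n, (gs E e a ^ 2 * Al E l a + 2 * gs E e a * Zl E l a)

theorem gs_swap (e : S × S) (a : ℕ) : gs E e.swap a = -gs E e a := by
  simp only [gs, pre, Prod.fst_swap, Prod.snd_swap, ← sum_neg_distrib]
  exact sum_congr rfl fun i _ => E.anti _ _ i

theorem al_swap (e : S × S) (a : ℕ) : al E e.swap a = al E e a := by
  simp only [al, Prod.fst_swap, Prod.snd_swap]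
  rw [E.anti e.1 e.2 a, abs_neg]

theorem cw_swap (e : S × S) : cw E e.swap = cw E e := E.csymm _ _

theorem gs_le (e : S × S) {a : ℕ} (ha : a < n) : |gs E e a| ≤ cw E e :=
  (abs_pre_le n _ ha).trans (E.hu _ _)

theorem al_sum (e : S × S) : ∑ a ∈ range n, al E e a ≤ cw E e := E.hu _ _

theorem al_nonneg (e : S × S) (a : ℕ) : 0 ≤ al E e a := abs_nonneg _

theorem Sg_app (m : List (S × S)) (e : S × S) (a : ℕ) :
    Sg E (m ++ [e]) a = Sg E m a + gs E e a := by
  induction m with
  | nil => simp [Sg]
  | cons h t ih => simp [Sg, ih]; ring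

theorem Al_app (m : List (S × S)) (e : S × S) (a : ℕ) :
    Al E (m ++ [e]) a = Al E m a + al E e a := by
  induction m with
  | nil => simp [Al]
  | cons h t ih => simp [Al, ih]; ring

theorem Wl_app (m : List (S × S)) (e : S × S) (a : ℕ) :
    Wl E (m ++ [e]) a = Wl E m a + gs E e a * Al E m a := by
  induction m with
  | nil => simp [Wl, Al, Sg]
  | cons h t ih => simp [Wl, Al, ih, Sg_app]; ring

theorem Rf_app (m : List (S × S)) (e : S × S) :
    Rf E (m ++ [e]) =
      Rf E m + ∑ a ∈ range n, (gs E e a ^ 2 * Al E m a + 2 * gs E e a * Wl E m a) := by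
  induction m with
  | nil => simp [Rf, Al, Wl, Sg]
  | cons h t ih =>
    simp only [List.cons_append, Rf, ih, Sg_app, add_assoc, ← sum_add_distrib]
    congr 1
    exact sum_congr rfl fun a _ => by simp only [Al, Wl]; ring

theorem wt_app (eps : ℝ) (m : List (S × S)) (e : S × S) :
    wt E eps (m ++ [e]) = wt E eps m * (1 - eps * cw E e) := by
  induction m with
  | nil => simp [wt]
  | cons h t ih => simp [wt, ih]; ring

theorem rev_spec (eps : ℝ) (l : List (S × S)) :
    wt E eps (rev l) = wt E eps l ∧ Rf E (rev l) = Rb E l ∧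
      ∀ a, Al E (rev l) a = Al E l a ∧ Wl E (rev l) a = -Zl E l a := by
  induction l with
  | nil => simp [rev, wt, Rf, Rb, Al, Wl, Zl]
  | cons h t ih =>
    obtain ⟨h1, h2, h3⟩ := ih
    rw [rev_cons]
    refine ⟨?_, ?_, fun a => ⟨?_, ?_⟩⟩
    · rw [wt_app, h1, cw_swap, wt, mul_comm]
    · rw [Rf_app, h2, Rb]
      congr 1
      exact sum_congr rfl fun a _ => by rw [(h3 a).1, (h3 a).2, gs_swap]; ring
    · rw [Al_app, (h3 a).1, al_swap, Al, add_comm]
    · rw [Wl_app, (h3 a).1, (h3 a).2, gs_swap, Zl]; ring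

theorem cnt_nonneg : ∀ l : List (S × S), 0 ≤ cnt E l
  | [] => le_rfl
  | e :: l => add_nonneg (E.c0 _ _) (cnt_nonneg l)

theorem cnt_le_length : ∀ l : List (S × S), cnt E l ≤ l.length
  | [] => by simp [cnt]
  | e :: l => by
      have := cnt_le_length l
      have := E.c1 e.1 e.2
      simp only [cnt, cw, List.length_cons, Nat.cast_succ]
      linarith

theorem Al_nonneg : ∀ (l : List (S × S)) (a : ℕ), 0 ≤ Al E l a
  | [], _ => le_rfl
  | e :: l, a => add_nonneg (al_nonneg E e a) (Al_nonneg l a)

theorem Al_sum : ∀ l : List (S × S), ∑ a ∈ range n, Al E l a ≤ cnt E l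
  | [] => by simp [Al, cnt]
  | e :: l => by
      simp only [Al, cnt, sum_add_distrib]
      exact add_le_add (al_sum E e) (Al_sum l)

theorem Sg_le : ∀ (l : List (S × S)) {a : ℕ}, a < n → |Sg E l a| ≤ cnt E l
  | [], a, _ => by simp [Sg, cnt]
  | e :: l, a, ha => by
      simp only [Sg, cnt]
      exact (abs_add_le _ _).trans (add_le_add (gs_le E e ha) (Sg_le l ha))

theorem Zl_le : ∀ (l : List (S × S)) {a : ℕ}, a < n → |Zl E l a| ≤ cnt E l * Al E l a
  | [], a, _ => by simp [Zl, cnt]
  | e :: l, a, ha => by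
      simp only [Zl, cnt, Al]
      refine (abs_add_le _ _).trans ?_
      rw [abs_mul, abs_of_nonneg (Al_nonneg E l a)]
      have h1 := mul_le_mul_of_nonneg_right (gs_le E e ha) (Al_nonneg E l a)
      have h2 := Zl_le l ha
      have h3 := mul_nonneg (add_nonneg (E.c0 e.1 e.2) (cnt_nonneg E l)) (al_nonneg E e a)
      simp only [cw] at *
      nlinarith

variable {eps : ℝ}

theorem wt_bounds (h0 : 0 ≤ eps) (h1 : eps ≤ 1) : ∀ l : List (S × S),
    0 ≤ wt E eps l ∧ wt E eps l ≤ 1 ∧ wt E eps l * (1 + eps * cnt E l) ≤ 1 ∧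
      wt E eps l * (1 + eps / 2 * cnt E l) ^ 2 ≤ 1 ∧ 1 - eps * cnt E l ≤ wt E eps l
  | [] => by simp [wt, cnt]
  | e :: l => by
      obtain ⟨a, b, c, d, f⟩ := wt_bounds h0 h1 l
      have hc0 : 0 ≤ cw E e := E.c0 _ _
      have hc1 : cw E e ≤ 1 := E.c1 _ _
      have hn := cnt_nonneg E l
      have hec : eps * cw E e ≤ 1 := mul_le_one₀ h1 hc0 hc1
      have hec0 : 0 ≤ eps * cw E e := mul_nonneg h0 hc0
      have hz : 0 ≤ 1 - eps * cw E e := by linarith
      simp only [wt, cnt]
      refine ⟨mul_nonneg hz a, mul_le_one₀ (by linarith) a b, ?_, ?_, ?_⟩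
      · have : (1 - eps * cw E e) * (1 + eps * (cw E e + cnt E l)) ≤ 1 + eps * cnt E l := by
          nlinarith [mul_nonneg hec0 hec0, mul_nonneg hec0 (mul_nonneg h0 hn)]
        calc _ = wt E eps l * ((1 - eps * cw E e) * (1 + eps * (cw E e + cnt E l))) := by ring
          _ ≤ wt E eps l * (1 + eps * cnt E l) := mul_le_mul_of_nonneg_left this a
          _ ≤ 1 := c
      · set A := 1 + eps / 2 * cnt E l with hA
        set v := eps * cw E e / 2 with hv
        have hv0 : 0 ≤ v := by positivity
        have hA1 : 1 ≤ A := by simp only [hA]; nlinarith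
        have : (1 - 2 * v) * (A + v) ^ 2 ≤ A ^ 2 := by
          nlinarith [mul_nonneg hv0 (mul_nonneg (by linarith : (0:ℝ) ≤ A) (sub_nonneg.2 hA1)),
            mul_nonneg (mul_nonneg hv0 hv0) (sub_nonneg.2 hA1), mul_nonneg hv0 (mul_nonneg hv0 hv0)]
        calc _ = wt E eps l * ((1 - 2 * v) * (A + v) ^ 2) := by simp only [hA, hv]; ring
          _ ≤ wt E eps l * A ^ 2 := mul_le_mul_of_nonneg_left this a
          _ ≤ 1 := d
      · nlinarith [mul_le_mul_of_nonneg_left f hz, mul_nonneg hec0 (mul_nonneg h0 hn)]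

theorem wt_cnt (h0 : 0 < eps) (h1 : eps ≤ 1) (l : List (S × S)) :
    wt E eps l * cnt E l ≤ 1 / eps ∧ wt E eps l * cnt E l ^ 2 ≤ 4 / eps ^ 2 := by
  obtain ⟨a, -, c, d, -⟩ := wt_bounds E h0.le h1 l
  have hn := cnt_nonneg E l
  constructor
  · rw [le_div_iff₀ h0]; nlinarith
  · rw [le_div_iff₀ (by positivity)]
    have : eps ^ 2 * cnt E l ^ 2 ≤ 4 * (1 + eps / 2 * cnt E l) ^ 2 := by
      nlinarith [mul_nonneg h0.le hn]
    nlinarith [mul_le_mul_of_nonneg_left this a]

theorem abs_wt_mul_good (h0 : 0 ≤ eps) (h1 : eps ≤ 1) {F : List (S × S) → ℝ} (b : ℝ) (hb : 0 ≤ b)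
    (h : ∀ l, |F l| ≤ b * (1 + cnt E l) ^ 3) : Good (fun l => wt E eps l * F l) := by
  refine ⟨b, hb, fun l => ?_⟩
  obtain ⟨a, a1, -⟩ := wt_bounds E h0 h1 l
  rw [abs_mul, abs_of_nonneg a]
  have hn := cnt_nonneg E l
  calc wt E eps l * |F l| ≤ 1 * |F l| := mul_le_mul_of_nonneg_right a1 (abs_nonneg _)
    _ ≤ b * (1 + cnt E l) ^ 3 := by rw [one_mul]; exact h l
    _ ≤ _ := mul_le_mul_of_nonneg_left
        (pow_le_pow_left₀ (by linarith) (by linarith [cnt_le_length E l]) 3) hb

/-- The positive functional. -/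
def Pp (eps : ℝ) (t : ℝ) (l : List (S × S)) (a : ℕ) : ℝ :=
  wt E eps l * (2 * cnt E l * Al E l a + t * (Sg E l a * Al E l a + Zl E l a))

/-- Its increment at the first step. -/
def Pinc (t : ℝ) (e : S × S) (l : List (S × S)) (a : ℕ) : ℝ :=
  2 * (cw E e * Al E l a + cnt E l * al E e a + cw E e * al E e a) +
    t * (2 * (gs E e a * Al E l a) + Sg E l a * al E e a + gs E e a * al E e a)

theorem Pp_cons (t : ℝ) (e : S × S) (l : List (S × S)) (a : ℕ) :
    Pp E eps t (e :: l) a =
      (1 - eps * cw E e) * (Pp E eps t l a + wt E eps l * Pinc E t e l a) := by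
  simp only [Pp, Pinc, wt, cnt, Al, Sg, Zl]; ring

theorem Pp_nonneg (h0 : 0 ≤ eps) (h1 : eps ≤ 1) {t : ℝ} (ht : t = 0 ∨ t = 1) (l : List (S × S))
    {a : ℕ} (ha : a < n) : 0 ≤ Pp E eps t l a := by
  refine mul_nonneg (wt_bounds E h0 h1 l).1 ?_
  have hA := Al_nonneg E l a
  have h2 := mul_le_mul_of_nonneg_right (Sg_le E l ha) hA
  have h3 := (abs_le.1 (Zl_le E l ha)).1
  have h4 : -(|Sg E l a| * Al E l a) ≤ Sg E l a * Al E l a := by
    nlinarith [neg_abs_le (Sg E l a)]
  have h5 := mul_nonneg (cnt_nonneg E l) hA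
  rcases ht with rfl | rfl
  · linarith
  · linarith

theorem Pp_sum (h0 : 0 < eps) (h1 : eps ≤ 1) {t : ℝ} (ht : t = 0 ∨ t = 1) (l : List (S × S)) :
    ∑ a ∈ range n, Pp E eps t l a ≤ 16 / eps ^ 2 := by
  obtain ⟨hw, -⟩ := wt_bounds E h0.le h1 l
  calc ∑ a ∈ range n, Pp E eps t l a ≤ ∑ a ∈ range n, wt E eps l * (4 * cnt E l) * Al E l a := by
        refine sum_le_sum fun a ha => ?_
        have ha' := mem_range.1 ha
        rw [Pp, mul_assoc (wt E eps l)]
        refine mul_le_mul_of_nonneg_left ?_ hw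
        have hA := Al_nonneg E l a
        have h2 := mul_le_mul_of_nonneg_right ((le_abs_self _).trans (Sg_le E l ha')) hA
        have h3 := (abs_le.1 (Zl_le E l ha')).2
        have h5 := mul_nonneg (cnt_nonneg E l) hA
        rcases ht with rfl | rfl <;> linarith
    _ ≤ wt E eps l * (4 * cnt E l) * cnt E l := by
        rw [← mul_sum]
        exact mul_le_mul_of_nonneg_left (Al_sum E l)
          (mul_nonneg hw (mul_nonneg (by norm_num) (cnt_nonneg E l)))
    _ = 4 * (wt E eps l * cnt E l ^ 2) := by ring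
    _ ≤ _ := by
        have := (wt_cnt E h0 h1 l).2
        calc _ ≤ 4 * (4 / eps ^ 2) := by linarith
          _ = _ := by ring

theorem Pinc_sum (h0 : 0 < eps) (h1 : eps ≤ 1) {t : ℝ} (ht : t = 0 ∨ t = 1) (e : S × S)
    (l : List (S × S)) :
    ∑ a ∈ range n, |wt E eps l * Pinc E t e l a| ≤ cw E e * (10 / eps) := by
  obtain ⟨hw, hw1, -⟩ := wt_bounds E h0.le h1 l
  have hc : 0 ≤ cw E e := E.c0 _ _
  have hn := cnt_nonneg E l
  have hpt : ∀ a ∈ range n, |wt E eps l * Pinc E t e l a| ≤
      wt E eps l * (4 * cw E e * Al E l a + (3 * cnt E l + 3 * cw E e) * al E e a) := by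
    intro a ha
    have ha' := mem_range.1 ha
    rw [abs_mul, abs_of_nonneg hw]
    refine mul_le_mul_of_nonneg_left ?_ hw
    have hA := Al_nonneg E l a
    have ha0 := al_nonneg E e a
    have g1 := mul_le_mul_of_nonneg_right (gs_le E e ha') hA
    have g2 := mul_le_mul_of_nonneg_right (gs_le E e ha') ha0
    have g3 := mul_le_mul_of_nonneg_right (Sg_le E l ha') ha0
    have e1 : ∀ p q : ℝ, 0 ≤ q → -(|p| * q) ≤ p * q ∧ p * q ≤ |p| * q := fun p q hq =>
      ⟨by nlinarith [neg_abs_le p], by nlinarith [le_abs_self p]⟩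
    have b1 := e1 (gs E e a) _ hA
    have b2 := e1 (gs E e a) _ ha0
    have b3 := e1 (Sg E l a) _ ha0
    have p1 := mul_nonneg hc hA
    have p2 := mul_nonneg hn ha0
    have p3 := mul_nonneg hc ha0
    rw [Pinc, abs_le]
    rcases ht with rfl | rfl <;> constructor <;> linarith [b1.1, b1.2, b2.1, b2.2, b3.1, b3.2]
  refine (sum_le_sum hpt).trans ?_
  rw [← mul_sum, sum_add_distrib, ← mul_sum, ← mul_sum]
  calc wt E eps l * (4 * cw E e * ∑ a ∈ range n, Al E l a +
        (3 * cnt E l + 3 * cw E e) * ∑ a ∈ range n, al E e a)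
      ≤ wt E eps l * (4 * cw E e * cnt E l + (3 * cnt E l + 3 * cw E e) * cw E e) :=
        mul_le_mul_of_nonneg_left (add_le_add
          (mul_le_mul_of_nonneg_left (Al_sum E l) (by positivity))
          (mul_le_mul_of_nonneg_left (al_sum E e) (by positivity))) hw
    _ = cw E e * (7 * (wt E eps l * cnt E l) + 3 * (wt E eps l * cw E e)) := by ring
    _ ≤ _ := by
        refine mul_le_mul_of_nonneg_left ?_ hc
        have := (wt_cnt E h0 h1 l).1
        have hh : wt E eps l * cw E e ≤ 1 := mul_le_one₀ hw1 hc (E.c1 _ _)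
        have he : 1 ≤ 1 / eps := by rw [le_div_iff₀ h0]; linarith
        calc _ ≤ 7 * (1 / eps) + 3 * (1 / eps) := by linarith
          _ = _ := by ring

/-- Remainder of one step. -/
def Dd (e : S × S) (l : List (S × S)) : ℝ :=
  ∑ a ∈ range n, (2 * (gs E e a ^ 2 * Al E l a) + al E e a * gs E e a ^ 2 +
    2 * (gs E e a * al E e a * Sg E l a))

/-- The symmetrised triple sum. -/
def Yl (l : List (S × S)) : ℝ :=
  (∑ a ∈ range n, Sg E l a ^ 2 * Al E l a) - Rf E l + Rb E l

theorem Yl_cons (e : S × S) (l : List (S × S)) :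
    Yl E (e :: l) = Yl E l + Dd E e l +
      ∑ a ∈ range n, 2 * gs E e a * (Sg E l a * Al E l a + Zl E l a) := by
  simp only [Yl, Dd, Rf, Rb, Sg, Al]
  have : ∑ a ∈ range n, (gs E e a + Sg E l a) ^ 2 * (al E e a + Al E l a) =
      (∑ a ∈ range n, Sg E l a ^ 2 * Al E l a) + (∑ a ∈ range n, al E e a * Sg E l a ^ 2)
      + (∑ a ∈ range n, (2 * (gs E e a ^ 2 * Al E l a) + al E e a * gs E e a ^ 2 +
          2 * (gs E e a * al E e a * Sg E l a)))
      + (∑ a ∈ range n, 2 * gs E e a * (Sg E l a * Al E l a + Zl E l a))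
      - ∑ a ∈ range n, (gs E e a ^ 2 * Al E l a + 2 * gs E e a * Zl E l a) := by
    simp only [← sum_add_distrib, ← sum_sub_distrib]
    exact sum_congr rfl fun a _ => by ring
  rw [this]; ring

theorem Dd_le (h0 : 0 < eps) (h1 : eps ≤ 1) (e : S × S) (l : List (S × S)) :
    |wt E eps l * Dd E e l| ≤ cw E e * (5 / eps) := by
  obtain ⟨hw, hw1, -⟩ := wt_bounds E h0.le h1 l
  have hc : 0 ≤ cw E e := E.c0 _ _
  have hc1 : cw E e ≤ 1 := E.c1 _ _
  have hn := cnt_nonneg E l
  have hD : |Dd E e l| ≤ cw E e * (4 * cnt E l + 1) := by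
    refine (abs_sum_le_sum_abs _ _).trans ?_
    calc _ ≤ ∑ a ∈ range n,
          (2 * cw E e * Al E l a + (cw E e + 2 * cw E e * cnt E l) * al E e a) := by
          refine sum_le_sum fun a ha => ?_
          have ha' := mem_range.1 ha
          have hA := Al_nonneg E l a
          have ha0 := al_nonneg E e a
          have g := gs_le E e ha'
          have g0 : gs E e a ^ 2 ≤ cw E e := by
            rw [← sq_abs]
            nlinarith [abs_nonneg (gs E e a)]
          have g3 : |gs E e a * al E e a * Sg E l a| ≤ cw E e * cnt E l * al E e a := by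
            rw [abs_mul, abs_mul, abs_of_nonneg ha0]
            calc |gs E e a| * al E e a * |Sg E l a| ≤ cw E e * al E e a * cnt E l :=
                  mul_le_mul (mul_le_mul_of_nonneg_right g ha0) (Sg_le E l ha') (abs_nonneg _)
                    (mul_nonneg hc ha0)
              _ = _ := by ring
          have q1 := mul_le_mul_of_nonneg_right g0 hA
          have q2 := mul_le_mul_of_nonneg_right g0 ha0
          have q3 := mul_nonneg (sq_nonneg (gs E e a)) hA
          have q4 := mul_nonneg (sq_nonneg (gs E e a)) ha0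
          rw [abs_le]; constructor <;> linarith [(abs_le.1 g3).1, (abs_le.1 g3).2]
      _ ≤ 2 * cw E e * cnt E l + (cw E e + 2 * cw E e * cnt E l) * cw E e := by
          rw [sum_add_distrib, ← mul_sum, ← mul_sum]
          exact add_le_add (mul_le_mul_of_nonneg_left (Al_sum E l) (by positivity))
            (mul_le_mul_of_nonneg_left (al_sum E e) (by positivity))
      _ ≤ _ := by nlinarith [mul_le_mul_of_nonneg_left hc1 (by positivity :
            (0:ℝ) ≤ cw E e + 2 * cw E e * cnt E l)]
  rw [abs_mul, abs_of_nonneg hw]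
  calc _ ≤ wt E eps l * (cw E e * (4 * cnt E l + 1)) := mul_le_mul_of_nonneg_left hD hw
    _ = cw E e * (4 * (wt E eps l * cnt E l) + wt E eps l) := by ring
    _ ≤ _ := by
        refine mul_le_mul_of_nonneg_left ?_ hc
        have := (wt_cnt E h0 h1 l).1
        have he : 1 ≤ 1 / eps := by rw [le_div_iff₀ h0]; linarith
        calc _ ≤ 4 * (1 / eps) + 1 * (1 / eps) := by linarith
          _ = _ := by ring

theorem cube_le (l : List (S × S)) : ∀ a, a < n →
    |Sg E l a| ^ 3 ≤ 3 * ∑ b ∈ range (a + 1), Sg E l b ^ 2 * Al E l b := by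
  have jump : ∀ s t d : ℝ, |s - t| ≤ d → |s| ^ 3 ≤ |t| ^ 3 + 3 * (s ^ 2 * d) := by
    intro s t d h
    have h1 : |s| - |t| ≤ d := (abs_sub_abs_le_abs_sub s t).trans h
    have hd : 0 ≤ d := (abs_nonneg _).trans h
    have a0 := abs_nonneg s
    have b0 := abs_nonneg t
    rw [← sq_abs s]
    by_cases hst : |s| ≤ |t|
    · have := pow_le_pow_left₀ a0 hst 3
      have := mul_nonneg (sq_nonneg |s|) hd
      linarith
    · have h2 : |s| ^ 3 - |t| ^ 3 ≤ 3 * |s| ^ 2 * (|s| - |t|) := by
        nlinarith [mul_nonneg (sq_nonneg (|s| - |t|)) (by linarith : (0:ℝ) ≤ 2 * |s| + |t|)]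
      nlinarith [mul_le_mul_of_nonneg_left h1 (sq_nonneg |s|)]
  have hinc : ∀ (l : List (S × S)) (a : ℕ),
      |Sg E l (a + 1) - Sg E l a| ≤ Al E l (a + 1) := by
    intro l a
    induction l with
    | nil => simp [Sg, Al]
    | cons e l ih =>
      simp only [Sg, Al]
      calc _ = |E.u e.1 e.2 (a + 1) + (Sg E l (a + 1) - Sg E l a)| := by
            congr 1; simp only [gs, pre, sum_range_succ _ (a + 1)]; ring
        _ ≤ _ := (abs_add_le _ _).trans (add_le_add le_rfl ih)
  have h0 : ∀ l : List (S × S), |Sg E l 0| ≤ Al E l 0 := by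
    intro l
    induction l with
    | nil => simp [Sg, Al]
    | cons e l ih =>
      simp only [Sg, Al, gs, al, pre]
      refine (abs_add_le _ _).trans (add_le_add ?_ ih)
      simp
  intro a
  induction a with
  | zero =>
    intro _
    simpa using jump (Sg E l 0) 0 (Al E l 0) (by simpa using h0 l)
  | succ a ih =>
    intro ha
    have h1 := ih (by omega)
    have h2 := jump _ _ _ (hinc l a)
    rw [sum_range_succ _ (a + 1)]
    linarith

variable [Fintype S] (C : Chain S) {k : ℝ}

/-- Mass of the class. -/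
def edgeMass : ℝ := ∑ x, ∑ y, C.pi x * C.P x y * E.c x y

/-- The tilted killed kernel. -/
def ker (k eps : ℝ) (x y : S) : ℝ := k * C.P x y * (1 - eps * E.c x y)

theorem Eg_fix (hk0 : 0 ≤ k) (hk1 : k < 1) {F : List (S × S) → ℝ}
    {I : S × S → List (S × S) → ℝ} (hF : Good F) (hI : ∀ e, Good (I e))
    (h : ∀ e l, F (e :: l) = (1 - eps * cw E e) * (F l + I e l)) (x : S) :
    Eg C k F x = (1 - k) * F [] +
      ∑ y, ker E C k eps x y * (Eg C k F y + Eg C k (I (x, y)) y) := by
  rw [Eg_step C hk0 hk1 hF x, mul_sum]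
  congr 1
  refine sum_congr rfl fun y _ => ?_
  have : (fun l => F ((x, y) :: l)) = fun l => (1 - eps * cw E (x, y)) * (F l + I (x, y) l) :=
    funext fun l => h (x, y) l
  rw [this, Eg_smul, Eg_add C hk0 hk1 hF (hI _)]
  simp only [ker, cw]; ring

/-- The third moment bound. -/
theorem tilted_bound (hk0 : 0 ≤ k) (hk1 : k < 1) (h0 : 0 < eps) (h1 : eps ≤ 1) :
    (1 - k) * Egs C k (fun l => wt E eps l * ∑ a ∈ range n, Sg E l a ^ 2 * Al E l a) ≤
      30800 * eps ^ (-(5 / 3) : ℝ) * edgeMass E C := by
  set K := ker E C k eps with hK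
  have hK0 : ∀ x y, 0 ≤ K x y := fun x y =>
    mul_nonneg (mul_nonneg hk0 (C.P_nonneg x y))
      (by linarith [mul_le_one₀ h1 (E.c0 x y) (E.c1 x y)])
  have hKbal : ∀ x y, C.pi x * K x y = C.pi y * K y x := fun x y => by
    simp only [hK, ker]
    rw [E.csymm y x]
    linear_combination (k * (1 - eps * E.c x y)) * C.balance x y
  have hKle : ∀ x y, K x y ≤ C.P x y := fun x y => by
    have hP := C.P_nonneg x y
    have : k * (1 - eps * E.c x y) ≤ 1 := by
      nlinarith [mul_nonneg (mul_nonneg hk0 h0.le) (E.c0 x y)]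
    calc K x y = C.P x y * (k * (1 - eps * E.c x y)) := by simp only [hK, ker]; ring
      _ ≤ _ := mul_le_of_le_one_right hP this
  have hrow : ∀ x, ∑ y, K x y ≤ 1 := fun x =>
    (sum_le_sum fun y _ => hKle x y).trans (C.P_sum x).le
  set pE := edgeMass E C with hpE
  have hKc : ∑ x, ∑ y, C.pi x * K x y * E.c x y ≤ pE :=
    sum_le_sum fun x _ => sum_le_sum fun y _ =>
      mul_le_mul_of_nonneg_right (mul_le_mul_of_nonneg_left (hKle x y) (C.pi_nonneg x)) (E.c0 x y)
  have hpE0 : 0 ≤ pE := sum_nonneg fun x _ => sum_nonneg fun y _ =>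
    mul_nonneg (mul_nonneg (C.pi_nonneg x) (C.P_nonneg x y)) (E.c0 x y)
  -- potentials
  set U : S → ℝ := fun x => Eg C k (wt E eps) x with hU
  have gW : Good (wt E eps) :=
    (Good.const 1).of_le fun l => by
      rw [abs_one, abs_of_nonneg (wt_bounds E h0.le h1 l).1]
      exact (wt_bounds E h0.le h1 l).2.1
  have hUfix : ∀ x, U x = (1 - k) + ∑ y, K x y * U y := fun x => by
    have := Eg_fix (E := E) (eps := eps) C hk0 hk1 (I := fun _ _ => 0) gW (fun _ => Good.const 0)
      (fun e l => by simp [wt]) x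
    simpa [wt, hU, hK, Eg_const C hk0 hk1] using this
  have hU0 : ∀ x, 0 ≤ U x := fun x =>
    Eg_nonneg C hk0 hk1 gW (fun l => (wt_bounds E h0.le h1 l).1) x
  have hU1 : ∀ x, U x ≤ 1 := fun x => by
    simpa [Eg_const C hk0 hk1] using
      Eg_mono C hk0 hk1 gW (Good.const 1) (fun l => (wt_bounds E h0.le h1 l).2.1) x
  have hUvar : ∑ x, ∑ y, C.pi x * K x y * (E.c x y * |U x - U y|) ≤
      3 / 2 * Real.sqrt eps * pE := by
    set V : S → ℝ := fun x => 1 - U x with hV
    have hres : ∀ x, V x - ∑ y, K x y * V y = k * eps * ∑ y, C.P x y * E.c x y := fun x => by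
      simp only [hV, mul_sub, sum_sub_distrib, mul_one]
      rw [hUfix x]
      have : ∑ y, K x y = k - k * eps * ∑ y, C.P x y * E.c x y := by
        calc _ = ∑ y, (k * C.P x y - k * eps * (C.P x y * E.c x y)) :=
              sum_congr rfl fun y _ => by simp only [hK, ker]; ring
          _ = _ := by rw [sum_sub_distrib, ← mul_sum, ← mul_sum, C.P_sum x, mul_one]
      rw [this]; ring
    have hdir : ∑ x, ∑ y, C.pi x * K x y * (V x - V y) ^ 2 ≤ 2 * (eps * pE) := by
      have e1 : ∑ x, ∑ y, C.pi x * K x y * (V x - V y) ^ 2 =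
          2 * (∑ x, ∑ y, C.pi x * K x y * V x ^ 2) -
            2 * ∑ x, ∑ y, C.pi x * K x y * (V x * V y) := by
        have hs : ∑ x, ∑ y, C.pi x * K x y * V y ^ 2 = ∑ x, ∑ y, C.pi x * K x y * V x ^ 2 := by
          rw [sum_comm]
          exact sum_congr rfl fun y _ => sum_congr rfl fun x _ => by rw [hKbal x y]
        calc _ = ∑ x, ∑ y, ((C.pi x * K x y * V x ^ 2 + C.pi x * K x y * V y ^ 2) -
              2 * (C.pi x * K x y * (V x * V y))) :=
              sum_congr rfl fun x _ => sum_congr rfl fun y _ => by ring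
          _ = _ := by
              simp only [sum_sub_distrib, sum_add_distrib, ← mul_sum]
              rw [hs]; ring
      have e2 : (∑ x, ∑ y, C.pi x * K x y * V x ^ 2) -
          ∑ x, ∑ y, C.pi x * K x y * (V x * V y) ≤
            ∑ x, C.pi x * V x * (V x - ∑ y, K x y * V y) := by
        rw [← sum_sub_distrib]
        refine sum_le_sum fun x _ => ?_
        have h2 : ∑ y, C.pi x * K x y * (V x * V y) = C.pi x * V x * ∑ y, K x y * V y := by
          rw [mul_sum]; exact sum_congr rfl fun y _ => by ring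
        have h3 : ∑ y, C.pi x * K x y * V x ^ 2 ≤ C.pi x * V x * V x := by
          rw [← sum_mul, ← mul_sum]
          nlinarith [mul_le_mul_of_nonneg_left (hrow x) (mul_nonneg (C.pi_nonneg x) (sq_nonneg (V x)))]
        rw [h2]; linarith
      have e3 : ∑ x, C.pi x * V x * (V x - ∑ y, K x y * V y) ≤ eps * pE := by
        simp only [hres]
        rw [hpE, edgeMass, mul_sum]
        refine sum_le_sum fun x _ => ?_
        have hsum : 0 ≤ ∑ y, C.P x y * E.c x y :=
          sum_nonneg fun y _ => mul_nonneg (C.P_nonneg x y) (E.c0 x y)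
        have hVk : V x * k ≤ 1 := by
          have : V x ≤ 1 := by simp only [hV]; linarith [hU0 x]
          have : 0 ≤ V x := by simp only [hV]; linarith [hU1 x]
          nlinarith
        calc _ = (V x * k) * (eps * (C.pi x * ∑ y, C.P x y * E.c x y)) := by ring
          _ ≤ eps * (C.pi x * ∑ y, C.P x y * E.c x y) :=
              mul_le_of_le_one_left (mul_nonneg h0.le (mul_nonneg (C.pi_nonneg x) hsum)) hVk
          _ = _ := by simp only [mul_sum]; exact sum_congr rfl fun y _ => by ring
      linarith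
    have hs : 0 < Real.sqrt eps := Real.sqrt_pos.2 h0
    have hsq := Real.mul_self_sqrt h0.le
    calc _ ≤ ∑ x, ∑ y, C.pi x * K x y *
          ((V x - V y) ^ 2 / (2 * Real.sqrt eps) + Real.sqrt eps / 2 * E.c x y) := by
          refine sum_le_sum fun x _ => sum_le_sum fun y _ =>
            mul_le_mul_of_nonneg_left ?_ (mul_nonneg (C.pi_nonneg x) (hK0 x y))
          have : (V x - V y) ^ 2 = |U x - U y| ^ 2 := by rw [sq_abs]; simp only [hV]; ring
          rw [this]
          set d := |U x - U y|
          set s := Real.sqrt eps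
          have hc0 := E.c0 x y
          have hc1 := E.c1 x y
          have : 2 * s * (E.c x y * d) ≤ d ^ 2 + s * s * E.c x y := by
            nlinarith [sq_nonneg (d - s * E.c x y),
              mul_nonneg (mul_nonneg (mul_self_nonneg s) hc0) (sub_nonneg.2 hc1)]
          calc E.c x y * d = (2 * s * (E.c x y * d)) / (2 * s) := by field_simp
            _ ≤ (d ^ 2 + s * s * E.c x y) / (2 * s) :=
                div_le_div_of_nonneg_right this (by positivity)
            _ = _ := by field_simp
      _ = (∑ x, ∑ y, C.pi x * K x y * (V x - V y) ^ 2) / (2 * Real.sqrt eps) +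
          Real.sqrt eps / 2 * ∑ x, ∑ y, C.pi x * K x y * E.c x y := by
          simp only [sum_div, mul_sum, ← sum_add_distrib]
          exact sum_congr rfl fun x _ => sum_congr rfl fun y _ => by ring
      _ ≤ 2 * (eps * pE) / (2 * Real.sqrt eps) + Real.sqrt eps / 2 * pE :=
          add_le_add (div_le_div_of_nonneg_right hdir (by positivity))
            (mul_le_mul_of_nonneg_left hKc (by positivity))
      _ = _ := by
          have : eps / Real.sqrt eps = Real.sqrt eps := Real.div_sqrt
          have h2 : 2 * (eps * pE) / (2 * Real.sqrt eps) = eps / Real.sqrt eps * pE := by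
            field_simp
          rw [h2, this]; ring
  -- positive measures
  have gP : ∀ t : ℝ, t = 0 ∨ t = 1 → ∀ a, a < n → Good (fun l => Pp E eps t l a) := by
    intro t ht a ha
    refine (Good.const (16 / eps ^ 2)).of_le fun l => ?_
    rw [abs_of_nonneg (Pp_nonneg E h0.le h1 ht l ha),
      abs_of_nonneg (by positivity : (0:ℝ) ≤ 16 / eps ^ 2)]
    exact le_trans (single_le_sum (fun b hb => Pp_nonneg E h0.le h1 ht l (mem_range.1 hb))
      (mem_range.2 ha)) (Pp_sum E h0 h1 ht l)
  have gI : ∀ t : ℝ, t = 0 ∨ t = 1 → ∀ e a, a < n →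
      Good (fun l => |wt E eps l * Pinc E t e l a|) ∧
        Good (fun l => wt E eps l * Pinc E t e l a) := by
    intro t ht e a ha
    have : ∀ l, |wt E eps l * Pinc E t e l a| ≤ |cw E e * (10 / eps)| := fun l =>
      le_trans (single_le_sum (f := fun b => |wt E eps l * Pinc E t e l b|)
        (fun b _ => abs_nonneg _) (mem_range.2 ha))
        ((Pinc_sum E h0 h1 ht e l).trans (le_abs_self _))
    exact ⟨(Good.const (cw E e * (10 / eps))).of_le fun l => by rw [abs_abs]; exact this l,
      (Good.const (cw E e * (10 / eps))).of_le this⟩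
  set lam : ℝ := eps ^ (-(5 / 3) : ℝ) with hlam
  have hlam0 : 0 < lam := Real.rpow_pos_of_pos h0 _
  have anti : ∀ t : ℝ, t = 0 ∨ t = 1 →
      |∑ x, ∑ y, C.pi x * U x * K x y *
        (2 * ∑ a ∈ range n, gs E (x, y) a * Eg C k (fun l => Pp E eps t l a) y)| ≤
      (15361 * lam + 24 / eps ^ 2 * Real.sqrt eps) * pE := by
    intro t ht
    set m : S → ℕ → ℝ := fun x a => if a < n then Eg C k (fun l => Pp E eps t l a) x else 0 with hm
    have hm0 : ∀ x a, 0 ≤ m x a := fun x a => by
      simp only [hm]; split_ifs with ha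
      · exact Eg_nonneg C hk0 hk1 (gP t ht a ha) (fun l => Pp_nonneg E h0.le h1 ht l ha) x
      · exact le_rfl
    have hmB : ∀ x, ∑ a ∈ range n, m x a ≤ 16 / eps ^ 2 := fun x => by
      calc _ = ∑ a ∈ range n, Eg C k (fun l => Pp E eps t l a) x :=
            sum_congr rfl fun a ha => by simp [hm, mem_range.1 ha]
        _ = Eg C k (fun l => ∑ a ∈ range n, Pp E eps t l a) x :=
            (Eg_sum C hk0 hk1 _ (fun a ha => gP t ht a (mem_range.1 ha)) x).symm
        _ ≤ Eg C k (fun _ => 16 / eps ^ 2) x :=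
            Eg_mono C hk0 hk1 (Good.sum _ fun a ha => gP t ht a (mem_range.1 ha)) (Good.const _)
              (Pp_sum E h0 h1 ht) x
        _ = _ := Eg_const C hk0 hk1 _ x
    set e : S → ℝ := fun x => 10 / eps * ∑ y, K x y * E.c x y with he
    have hme : ∀ x, ∑ a ∈ range n, |m x a - ∑ y, K x y * m y a| ≤ e x := fun x => by
      calc _ = ∑ a ∈ range n, |∑ y, K x y *
            Eg C k (fun l => wt E eps l * Pinc E t (x, y) l a) y| := by
            refine sum_congr rfl fun a ha => ?_
            have ha' := mem_range.1 ha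
            have := Eg_fix (E := E) C hk0 hk1 (I := fun e l => wt E eps l * Pinc E t e l a)
              (gP t ht a ha') (fun e => (gI t ht e a ha').2) (fun e l => Pp_cons E t e l a) x
            simp only [hm, if_pos ha']
            rw [this]
            simp only [mul_add, sum_add_distrib]
            simp [Pp, Al, Zl, cnt, Sg, hK]
        _ ≤ ∑ a ∈ range n, ∑ y, K x y *
            Eg C k (fun l => |wt E eps l * Pinc E t (x, y) l a|) y := by
            refine sum_le_sum fun a ha => (abs_sum_le_sum_abs _ _).trans (sum_le_sum fun y _ => ?_)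
            have g := gI t ht (x, y) a (mem_range.1 ha)
            rw [abs_mul, abs_of_nonneg (hK0 x y)]
            refine mul_le_mul_of_nonneg_left (abs_le.2 ⟨?_, ?_⟩) (hK0 x y)
            · rw [neg_le]
              have := Eg_mono C hk0 hk1 ((g.2.smul (-1))) g.1
                (fun l => by rw [neg_one_mul]; exact neg_le_abs _) y
              rwa [Eg_smul, neg_one_mul] at this
            · exact Eg_mono C hk0 hk1 g.2 g.1 (fun l => le_abs_self _) y
        _ ≤ ∑ y, K x y * (E.c x y * (10 / eps)) := by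
            rw [sum_comm]
            refine sum_le_sum fun y _ => ?_
            rw [← mul_sum]
            refine mul_le_mul_of_nonneg_left ?_ (hK0 x y)
            rw [← Eg_sum C hk0 hk1 _ (fun a ha => (gI t ht (x, y) a (mem_range.1 ha)).1)]
            calc _ ≤ Eg C k (fun _ => cw E (x, y) * (10 / eps)) y :=
                  Eg_mono C hk0 hk1
                    (Good.sum _ fun a ha => (gI t ht (x, y) a (mem_range.1 ha)).1)
                    (Good.const _) (Pinc_sum E h0 h1 ht (x, y)) y
              _ = _ := Eg_const C hk0 hk1 _ y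
        _ = _ := by simp only [he, mul_sum]; exact sum_congr rfl fun y _ => by ring
    have hvar := edge_variation C.pi K C.pi_nonneg hK0 hKbal hrow n m hm0 (16 / eps ^ 2) hmB e hme
      E.c E.c0 E.c1 E.u E.hu lam hlam0
    have hEe : ∑ x, C.pi x * e x ≤ 10 / eps * pE := by
      calc _ = 10 / eps * ∑ x, ∑ y, C.pi x * K x y * E.c x y := by
            simp only [he, mul_sum]
            exact sum_congr rfl fun x _ => sum_congr rfl fun y _ => by ring
        _ ≤ _ := mul_le_mul_of_nonneg_left hKc (by positivity)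
    have hvar' : ∑ x, ∑ y, C.pi x * K x y *
        |∑ a ∈ range n, pre (E.u x y) a * (m y a - m x a)| ≤ 15361 * lam * pE := by
      refine hvar.trans ?_
      have h5 : lam ^ 3 = 1 / eps ^ 5 := by
        rw [hlam, ← Real.rpow_natCast, ← Real.rpow_mul h0.le, one_div, ← Real.rpow_natCast eps,
          ← Real.rpow_neg h0.le]
        norm_num
      calc _ ≤ 6 * (16 / eps ^ 2) ^ 2 * (10 / eps * pE) / lam ^ 2 + lam * pE :=
            add_le_add (div_le_div_of_nonneg_right
              (mul_le_mul_of_nonneg_left hEe (by positivity)) (by positivity))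
              (mul_le_mul_of_nonneg_left hKc hlam0.le)
        _ = 15360 * (1 / eps ^ 5) * pE / lam ^ 2 + lam * pE := by field_simp; ring
        _ = _ := by rw [← h5]; field_simp; ring
    have eqA : ∑ x, ∑ y, C.pi x * U x * K x y *
        (2 * ∑ a ∈ range n, gs E (x, y) a * Eg C k (fun l => Pp E eps t l a) y) =
        ∑ x, ∑ y, C.pi x * K x y * (U x * ∑ a ∈ range n, gs E (x, y) a * m y a -
          U y * ∑ a ∈ range n, gs E (x, y) a * m x a) := by
      have hs : ∑ x, ∑ y, C.pi x * K x y * (U y * ∑ a ∈ range n, gs E (x, y) a * m x a) =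
          -∑ x, ∑ y, C.pi x * K x y * (U x * ∑ a ∈ range n, gs E (x, y) a * m y a) := by
        rw [sum_comm, ← sum_neg_distrib]
        refine sum_congr rfl fun y _ => ?_
        rw [← sum_neg_distrib]
        refine sum_congr rfl fun x _ => ?_
        rw [hKbal x y]
        have : ∑ a ∈ range n, gs E (x, y) a * m x a = -∑ a ∈ range n, gs E (y, x) a * m x a := by
          rw [← sum_neg_distrib]
          refine sum_congr rfl fun a _ => ?_
          rw [show (x, y) = (y, x).swap from rfl, gs_swap]; ring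
        rw [this]; ring
      simp only [mul_sub, sum_sub_distrib, hs, sub_neg_eq_add, ← sum_add_distrib]
      refine sum_congr rfl fun x _ => sum_congr rfl fun y _ => ?_
      have : ∑ a ∈ range n, gs E (x, y) a * Eg C k (fun l => Pp E eps t l a) y =
          ∑ a ∈ range n, gs E (x, y) a * m y a :=
        sum_congr rfl fun a ha => by simp [hm, mem_range.1 ha]
      rw [this]; ring
    rw [eqA]
    calc _ ≤ ∑ x, ∑ y, (C.pi x * K x y * |∑ a ∈ range n, pre (E.u x y) a * (m y a - m x a)| +
          16 / eps ^ 2 * (C.pi x * K x y * (E.c x y * |U x - U y|))) := by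
          refine (abs_sum_le_sum_abs _ _).trans (sum_le_sum fun x _ =>
            (abs_sum_le_sum_abs _ _).trans (sum_le_sum fun y _ => ?_))
          have hw : 0 ≤ C.pi x * K x y := mul_nonneg (C.pi_nonneg x) (hK0 x y)
          rw [abs_mul, abs_of_nonneg hw]
          have e : U x * ∑ a ∈ range n, gs E (x, y) a * m y a -
              U y * ∑ a ∈ range n, gs E (x, y) a * m x a =
              U x * ∑ a ∈ range n, pre (E.u x y) a * (m y a - m x a) +
              (U x - U y) * ∑ a ∈ range n, gs E (x, y) a * m x a := by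
            simp only [mul_sub, sum_sub_distrib, gs]; ring
          have hsum : |∑ a ∈ range n, gs E (x, y) a * m x a| ≤ E.c x y * (16 / eps ^ 2) := by
            calc _ ≤ ∑ a ∈ range n, E.c x y * m x a :=
                  (abs_sum_le_sum_abs _ _).trans (sum_le_sum fun a ha => by
                    rw [abs_mul, abs_of_nonneg (hm0 x a)]
                    exact mul_le_mul_of_nonneg_right (gs_le E (x, y) (mem_range.1 ha)) (hm0 x a))
              _ ≤ _ := by rw [← mul_sum]; exact mul_le_mul_of_nonneg_left (hmB x) (E.c0 x y)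
          rw [e]
          calc _ ≤ C.pi x * K x y * (|∑ a ∈ range n, pre (E.u x y) a * (m y a - m x a)| +
                |U x - U y| * (E.c x y * (16 / eps ^ 2))) := by
                refine mul_le_mul_of_nonneg_left ((abs_add_le _ _).trans (add_le_add ?_ ?_)) hw
                · rw [abs_mul, abs_of_nonneg (hU0 x)]
                  exact mul_le_of_le_one_left (abs_nonneg _) (hU1 x)
                · rw [abs_mul]; exact mul_le_mul_of_nonneg_left hsum (abs_nonneg _)
            _ = _ := by ring
      _ ≤ 15361 * lam * pE + 16 / eps ^ 2 * (3 / 2 * Real.sqrt eps * pE) := by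
          simp only [sum_add_distrib, ← mul_sum]
          exact add_le_add hvar' (mul_le_mul_of_nonneg_left hUvar (by positivity))
      _ = _ := by ring
  -- the scalar identity
  set F : List (S × S) → ℝ := fun l => wt E eps l * Yl E l with hF
  have habs : ∀ l : List (S × S), |∑ a ∈ range n, Sg E l a ^ 2 * Al E l a| ≤ (1 + cnt E l) ^ 3 ∧
      |Rf E l| ≤ (1 + cnt E l) ^ 3 ∧ |Rb E l| ≤ 4 * (1 + cnt E l) ^ 3 := by
    intro l
    refine ⟨?_, ?_, ?_⟩
    · have hn := cnt_nonneg E l
      calc _ ≤ ∑ a ∈ range n, cnt E l ^ 2 * Al E l a :=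
            (abs_sum_le_sum_abs _ _).trans (sum_le_sum fun a ha => by
              rw [abs_mul, abs_of_nonneg (Al_nonneg E l a), abs_pow]
              exact mul_le_mul_of_nonneg_right
                (pow_le_pow_left₀ (abs_nonneg _) (Sg_le E l (mem_range.1 ha)) 2)
                (Al_nonneg E l a))
        _ ≤ cnt E l ^ 2 * cnt E l := by
            rw [← mul_sum]; exact mul_le_mul_of_nonneg_left (Al_sum E l) (sq_nonneg _)
        _ ≤ _ := by nlinarith [mul_nonneg hn hn]
    · suffices h : |Rf E l| ≤ cnt E l ^ 3 from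
        h.trans (pow_le_pow_left₀ (cnt_nonneg E l) (by linarith) 3)
      induction l with
      | nil => simp [Rf, cnt]
      | cons e l ih =>
        have hn := cnt_nonneg E l
        have hc := E.c0 e.1 e.2
        have h2 : |∑ a ∈ range n, al E e a * Sg E l a ^ 2| ≤ cw E e * cnt E l ^ 2 := by
          calc _ ≤ ∑ a ∈ range n, al E e a * cnt E l ^ 2 :=
                (abs_sum_le_sum_abs _ _).trans (sum_le_sum fun a ha => by
                  rw [abs_mul, abs_of_nonneg (al_nonneg E e a), abs_pow]
                  exact mul_le_mul_of_nonneg_left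
                    (pow_le_pow_left₀ (abs_nonneg _) (Sg_le E l (mem_range.1 ha)) 2)
                    (al_nonneg E e a))
            _ ≤ _ := by
                rw [← sum_mul]; exact mul_le_mul_of_nonneg_right (al_sum E e) (sq_nonneg _)
        simp only [Rf, cnt, cw] at *
        refine (abs_add_le _ _).trans ((add_le_add ih h2).trans ?_)
        nlinarith [mul_nonneg hc (mul_nonneg hn hn), mul_nonneg hn (mul_nonneg hc hc),
          mul_nonneg hc (mul_nonneg hc hc)]
    · suffices h : |Rb E l| ≤ 3 * cnt E l ^ 3 + cnt E l ^ 2 from by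
        have hn := cnt_nonneg E l
        refine h.trans ?_
        nlinarith [mul_nonneg hn hn, mul_nonneg hn (mul_nonneg hn hn)]
      induction l with
      | nil => simp [Rb, cnt]
      | cons e l ih =>
        have hn := cnt_nonneg E l
        have hc := E.c0 e.1 e.2
        have hc1 := E.c1 e.1 e.2
        have h2 : |∑ a ∈ range n, (gs E e a ^ 2 * Al E l a + 2 * gs E e a * Zl E l a)| ≤
            cw E e ^ 2 * cnt E l + 2 * cw E e * cnt E l * cnt E l := by
          calc _ ≤ ∑ a ∈ range n, (cw E e ^ 2 + 2 * cw E e * cnt E l) * Al E l a :=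
                (abs_sum_le_sum_abs _ _).trans (sum_le_sum fun a ha => by
                  have ha' := mem_range.1 ha
                  refine (abs_add_le _ _).trans ?_
                  rw [add_mul, abs_mul, abs_mul, abs_mul, abs_two, abs_pow,
                    abs_of_nonneg (Al_nonneg E l a)]
                  refine add_le_add (mul_le_mul_of_nonneg_right
                    (pow_le_pow_left₀ (abs_nonneg _) (gs_le E e ha') 2) (Al_nonneg E l a)) ?_
                  calc 2 * |gs E e a| * |Zl E l a| ≤ 2 * cw E e * (cnt E l * Al E l a) :=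
                        mul_le_mul (by linarith [gs_le E e ha']) (Zl_le E l ha') (abs_nonneg _)
                          (by simp only [cw]; linarith)
                    _ = _ := by ring)
            _ ≤ (cw E e ^ 2 + 2 * cw E e * cnt E l) * cnt E l := by
                rw [← mul_sum]
                exact mul_le_mul_of_nonneg_left (Al_sum E l)
                  (by simp only [cw]; positivity)
            _ = _ := by ring
        simp only [Rb, cnt, cw] at *
        refine (abs_add_le _ _).trans ((add_le_add ih h2).trans ?_)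
        nlinarith [mul_nonneg hc (mul_nonneg hn hn), mul_nonneg hn (mul_nonneg hc hc),
          mul_nonneg hc (mul_nonneg hc hc), mul_nonneg hc hc, mul_nonneg hc hn,
          mul_nonneg (mul_nonneg hc hn) (sub_nonneg.2 hc1)]
  have gS : Good (fun l => wt E eps l * ∑ a ∈ range n, Sg E l a ^ 2 * Al E l a) :=
    abs_wt_mul_good E h0.le h1 1 zero_le_one fun l => by simpa using (habs l).1
  have gf : Good (fun l => wt E eps l * Rf E l) :=
    abs_wt_mul_good E h0.le h1 1 zero_le_one fun l => by simpa using (habs l).2.1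
  have gb : Good (fun l => wt E eps l * Rb E l) :=
    abs_wt_mul_good E h0.le h1 4 (by norm_num) fun l => (habs l).2.2
  have hsym : Egs C k (fun l => wt E eps l * ∑ a ∈ range n, Sg E l a ^ 2 * Al E l a) =
      Egs C k F := by
    have hrev : (fun l => wt E eps (rev l) * Rf E (rev l)) = fun l => wt E eps l * Rb E l :=
      funext fun l => by rw [(rev_spec E eps l).1, (rev_spec E eps l).2.1]
    have h2 := Egs_rev C hk0 hk1 gf (show Good (fun l => wt E eps (rev l) * Rf E (rev l)) by
      rw [hrev]; exact gb)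
    rw [hrev] at h2
    have hF' : F = fun l => wt E eps l * (∑ a ∈ range n, Sg E l a ^ 2 * Al E l a) +
        ((-1) * (wt E eps l * Rf E l) + wt E eps l * Rb E l) := by
      funext l; simp only [hF, Yl]; ring
    unfold Egs at h2 ⊢
    rw [hF']
    simp only [Eg_add C hk0 hk1 gS ((gf.smul (-1)).add gb), Eg_add C hk0 hk1 (gf.smul (-1)) gb,
      Eg_smul, mul_add, sum_add_distrib]
    rw [h2]
    simp only [← mul_assoc, mul_comm _ (-1 : ℝ)]
    simp [mul_assoc, ← mul_sum]
  rw [hsym]
  have gF : Good F := by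
    refine abs_wt_mul_good E h0.le h1 6 (by norm_num) fun l => ?_
    obtain ⟨a, b, c⟩ := habs l
    simp only [Yl]
    refine (abs_add_le _ _).trans ?_
    have := abs_sub (∑ a ∈ range n, Sg E l a ^ 2 * Al E l a) (Rf E l)
    linarith
  set I : S × S → List (S × S) → ℝ := fun e l => wt E eps l * Dd E e l +
    ∑ a ∈ range n, 2 * gs E e a * (Pp E eps 1 l a + (-1) * Pp E eps 0 l a) with hI
  have gD : ∀ e, Good (fun l => wt E eps l * Dd E e l) := fun e =>
    (Good.const (cw E e * (5 / eps))).of_le fun l => (Dd_le E h0 h1 e l).trans (le_abs_self _)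
  have gdiff : ∀ e a, a < n →
      Good (fun l => 2 * gs E e a * (Pp E eps 1 l a + (-1) * Pp E eps 0 l a)) := fun e a ha =>
    ((gP 1 (Or.inr rfl) a ha).add ((gP 0 (Or.inl rfl) a ha).smul (-1))).smul _
  have gIe : ∀ e, Good (I e) := fun e =>
    (gD e).add (Good.sum _ fun a ha => gdiff e a (mem_range.1 ha))
  have hfix := Eg_fix (E := E) C hk0 hk1 gF gIe (fun e l => by
    have : ∑ a ∈ range n, 2 * gs E e a * (Pp E eps 1 l a + (-1) * Pp E eps 0 l a) =
        wt E eps l * ∑ a ∈ range n, 2 * gs E e a * (Sg E l a * Al E l a + Zl E l a) := by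
      rw [mul_sum]; exact sum_congr rfl fun a _ => by simp only [Pp]; ring
    simp only [hF, hI, wt, Yl_cons, this]; ring)
  have hF0 : F [] = 0 := by simp [hF, Yl, Rf, Rb, Sg]
  simp only [hF0, mul_zero, zero_add] at hfix
  have hdual : (1 - k) * Egs C k F =
      ∑ x, ∑ y, C.pi x * U x * K x y * Eg C k (I (x, y)) y := by
    have e1 : ∑ x, C.pi x * U x * Eg C k F x =
        ∑ x, ∑ y, C.pi x * U x * K x y * Eg C k F y +
        ∑ x, ∑ y, C.pi x * U x * K x y * Eg C k (I (x, y)) y := by
      rw [← sum_add_distrib]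
      refine sum_congr rfl fun x _ => ?_
      rw [hfix x, mul_sum, ← sum_add_distrib]
      exact sum_congr rfl fun y _ => by ring
    have e2 : ∑ x, C.pi x * U x * Eg C k F x =
        (1 - k) * Egs C k F + ∑ x, ∑ y, C.pi x * U x * K x y * Eg C k F y := by
      have h2 : ∑ x, ∑ y, C.pi x * U x * K x y * Eg C k F y =
          ∑ y, ∑ x, C.pi y * K y x * U x * Eg C k F y := by
        rw [sum_comm]
        exact sum_congr rfl fun y _ => sum_congr rfl fun x _ => by
          linear_combination U x * Eg C k F y * hKbal x y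
      rw [h2, Egs, mul_sum, ← sum_add_distrib]
      refine sum_congr rfl fun x _ => ?_
      conv_lhs => rw [hUfix x]
      simp only [mul_add, add_mul, mul_sum, sum_mul]
      congr 1
      · ring
      · exact sum_congr rfl fun y _ => by ring
    linarith
  rw [hdual]
  have hI' : ∀ x y, Eg C k (I (x, y)) y =
      Eg C k (fun l => wt E eps l * Dd E (x, y) l) y +
        ((2 * ∑ a ∈ range n, gs E (x, y) a * Eg C k (fun l => Pp E eps 1 l a) y) -
        (2 * ∑ a ∈ range n, gs E (x, y) a * Eg C k (fun l => Pp E eps 0 l a) y)) := by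
    intro x y
    simp only [hI]
    rw [Eg_add C hk0 hk1 (gD _) (Good.sum _ fun a ha => gdiff _ a (mem_range.1 ha)),
      Eg_sum C hk0 hk1 _ (fun a ha => gdiff _ a (mem_range.1 ha)), mul_sum, mul_sum,
      ← sum_sub_distrib]
    congr 1
    refine sum_congr rfl fun a ha => ?_
    have ha' := mem_range.1 ha
    rw [Eg_smul, Eg_add C hk0 hk1 (gP 1 (Or.inr rfl) a ha') ((gP 0 (Or.inl rfl) a ha').smul (-1)),
      Eg_smul]
    ring
  simp only [hI', mul_add, mul_sub, sum_add_distrib, sum_sub_distrib]
  have hd : ∑ x, ∑ y, C.pi x * U x * K x y * Eg C k (fun l => wt E eps l * Dd E (x, y) l) y ≤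
      5 / eps * pE := by
    calc _ ≤ ∑ x, ∑ y, C.pi x * U x * K x y * (E.c x y * (5 / eps)) := by
          refine sum_le_sum fun x _ => sum_le_sum fun y _ => mul_le_mul_of_nonneg_left ?_
            (mul_nonneg (mul_nonneg (C.pi_nonneg x) (hU0 x)) (hK0 x y))
          calc _ ≤ Eg C k (fun _ => cw E (x, y) * (5 / eps)) y :=
                Eg_mono C hk0 hk1 (gD _) (Good.const _)
                  (fun l => (le_abs_self _).trans (Dd_le E h0 h1 (x, y) l)) y
            _ = _ := Eg_const C hk0 hk1 _ y
      _ ≤ ∑ x, ∑ y, C.pi x * K x y * E.c x y * (5 / eps) := by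
          refine sum_le_sum fun x _ => sum_le_sum fun y _ => ?_
          have hw : 0 ≤ C.pi x * K x y * E.c x y * (5 / eps) :=
            mul_nonneg (mul_nonneg (mul_nonneg (C.pi_nonneg x) (hK0 x y)) (E.c0 x y))
              (by positivity)
          calc _ = U x * (C.pi x * K x y * E.c x y * (5 / eps)) := by ring
            _ ≤ _ := mul_le_of_le_one_left hw (hU1 x)
      _ ≤ _ := by
          simp only [← sum_mul]
          rw [mul_comm]
          exact mul_le_mul_of_nonneg_left hKc (by positivity)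
  have hA := (abs_le.1 (anti 1 (Or.inr rfl))).2
  have hB := (abs_le.1 (anti 0 (Or.inl rfl))).1
  have hpow : 24 / eps ^ 2 * Real.sqrt eps ≤ 24 * lam := by
    have e : 24 / eps ^ 2 * Real.sqrt eps = 24 * eps ^ (-(3 / 2) : ℝ) := by
      rw [Real.sqrt_eq_rpow, div_mul_eq_mul_div, mul_div_assoc]
      congr 1
      rw [div_eq_iff (by positivity), ← Real.rpow_natCast eps 2, ← Real.rpow_add h0]
      norm_num
    rw [e, hlam]
    exact mul_le_mul_of_nonneg_left
      (Real.rpow_le_rpow_of_exponent_ge h0 h1 (by norm_num)) (by norm_num)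
  have hpow1 : 5 / eps ≤ 5 * lam := by
    rw [div_eq_mul_inv, ← Real.rpow_neg_one, hlam]
    exact mul_le_mul_of_nonneg_left
      (Real.rpow_le_rpow_of_exponent_ge h0 h1 (by norm_num)) (by norm_num)
  have q1 := mul_le_mul_of_nonneg_right hpow hpE0
  have q2 := mul_le_mul_of_nonneg_right hpow1 hpE0
  have q3 : 0 ≤ lam * pE := mul_nonneg hlam0.le hpE0
  nlinarith [hd, hA, hB, q1, q2, q3]

end Vale.Agent.P125.GC
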