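import Mathlib

/-! Path expectations with a geometric horizon for a finite stationary reversible chain. -/

namespace Vale.Agent.P125.GC

open Finset

/-- A finite stationary reversible Markov chain. -/
structure Chain (S : Type*) [Fintype S] where
  pi : S → ℝ
  P : S → S → ℝ
  pi_nonneg : ∀ x, 0 ≤ pi x
  pi_sum : ∑ x, pi x = 1
  P_nonneg : ∀ x y, 0 ≤ P x y
  P_sum : ∀ x, ∑ y, P x y = 1
  balance : ∀ x y, pi x * P x y = pi y * P y x

variable {S : Type*} [Fintype S] (C : Chain S)

/-- Expectation, from `x`, of a functional of the list of the first `T` steps. -/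
def ev : ℕ → S → (List (S × S) → ℝ) → ℝ
  | 0, _, F => F []
  | T + 1, x, F => ∑ y, C.P x y * ev T y (fun l => F ((x, y) :: l))

theorem ev_add (T : ℕ) : ∀ (x : S) (F G : List (S × S) → ℝ),
    ev C T x (fun l => F l + G l) = ev C T x F + ev C T x G := by
  induction T with
  | zero => intros; rfl
  | succ T ih =>
    intro x F G
    simp only [ev, ih, mul_add, sum_add_distrib]

theorem ev_smul (T : ℕ) : ∀ (x : S) (a : ℝ) (F : List (S × S) → ℝ),
    ev C T x (fun l => a * F l) = a * ev C T x F := by
  induction T with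
  | zero => intros; rfl
  | succ T ih =>
    intro x a F
    simp only [ev, ih, mul_sum]
    exact sum_congr rfl fun y _ => by ring

theorem ev_const (T : ℕ) : ∀ (x : S) (a : ℝ), ev C T x (fun _ => a) = a := by
  induction T with
  | zero => intros; rfl
  | succ T ih =>
    intro x a
    simp [ev, ih, ← sum_mul, C.P_sum x]

theorem ev_mono (T : ℕ) : ∀ (x : S) (F G : List (S × S) → ℝ),
    (∀ l, l.length = T → F l ≤ G l) → ev C T x F ≤ ev C T x G := by
  induction T with
  | zero => intro x F G h; exact h [] rfl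
  | succ T ih =>
    intro x F G h
    refine sum_le_sum fun y _ => mul_le_mul_of_nonneg_left ?_ (C.P_nonneg x y)
    exact ih y _ _ fun l hl => h _ (by simp [hl])

theorem abs_ev_le (T : ℕ) (x : S) (F : List (S × S) → ℝ) (b : ℝ)
    (h : ∀ l, l.length = T → |F l| ≤ b) : |ev C T x F| ≤ b := by
  rw [abs_le]
  constructor
  · calc -b = ev C T x (fun _ => -b) := (ev_const C T x _).symm
      _ ≤ _ := ev_mono C T x _ _ fun l hl => (abs_le.1 (h l hl)).1
  · calc ev C T x F ≤ ev C T x (fun _ => b) := ev_mono C T x _ _ fun l hl => (abs_le.1 (h l hl)).2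
      _ = b := ev_const C T x _

/-- The reversed path. -/
def rev (l : List (S × S)) : List (S × S) := (l.map Prod.swap).reverse

omit [Fintype S] in
theorem rev_cons (h : S × S) (l : List (S × S)) : rev (h :: l) = rev l ++ [h.swap] := by
  simp [rev]

theorem ev_congr (T : ℕ) : ∀ (x : S) (F G : List (S × S) → ℝ),
    (∀ l, l.length = T → (∀ h ∈ l.head?, h.1 = x) → F l = G l) → ev C T x F = ev C T x G := by
  induction T with
  | zero => intro x F G h; exact h [] rfl (by simp)
  | succ T ih =>
    intro x F G h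
    refine sum_congr rfl fun y _ => ?_
    rw [ih y _ (fun l => G ((x, y) :: l))]
    intro l hl _
    exact h _ (by simp [hl]) (by simp)

theorem ev_sum {ι : Type*} (T : ℕ) (x : S) (s : Finset ι) (H : ι → List (S × S) → ℝ) :
    ev C T x (fun l => ∑ i ∈ s, H i l) = ∑ i ∈ s, ev C T x (H i) := by
  induction s using Finset.cons_induction with
  | empty => simp [ev_const]
  | cons a s ha ih => simp [ev_add, ih]

/-- End point of a path starting at `x`. -/
def endpt (x : S) (l : List (S × S)) : S := (l.getLast?.map Prod.snd).getD x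

omit [Fintype S] in
theorem endpt_cons (x y : S) (l : List (S × S)) : endpt x ((x, y) :: l) = endpt y l := by
  cases l with
  | nil => simp [endpt]
  | cons a m => simp [endpt, List.getLast?_cons]

/-- Stationary expectation. -/
def evs (T : ℕ) (F : List (S × S) → ℝ) : ℝ := ∑ x, C.pi x * ev C T x F

theorem ev_last (T : ℕ) : ∀ (x : S) (F : List (S × S) → ℝ),
    ev C (T + 1) x F =
      ev C T x (fun l => ∑ w, C.P (endpt x l) w * F (l ++ [(endpt x l, w)])) := by
  induction T with
  | zero => intro x F; simp [ev, endpt]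
  | succ T ih =>
    intro x F
    rw [ev, ev]
    refine sum_congr rfl fun y _ => ?_
    rw [ih y]
    congr 2
    funext l
    simp [endpt_cons]

/-- Time reversal, with the end point recorded. -/
theorem ev_reverse (T : ℕ) : ∀ (G : S → List (S × S) → ℝ),
    ∑ x, C.pi x * ev C T x (fun l => G (endpt x l) (rev l)) =
      ∑ y, C.pi y * ev C T y (fun l => G y l) := by
  induction T with
  | zero => intro G; simp [ev, endpt, rev]
  | succ T ih =>
    intro G
    calc
      ∑ x, C.pi x * ev C (T + 1) x (fun l => G (endpt x l) (rev l))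
          = ∑ x, ∑ y, C.pi y * C.P y x *
              ev C T y (fun l => G (endpt y l) (rev l ++ [(y, x)])) := by
            refine sum_congr rfl fun x _ => ?_
            rw [ev, mul_sum]
            refine sum_congr rfl fun y _ => ?_
            rw [← mul_assoc, C.balance x y]
            congr 1
            congr 1
            funext l
            rw [endpt_cons, rev_cons]
            rfl
      _ = ∑ y, C.pi y * ev C T y
            (fun l => ∑ x, C.P y x * G (endpt y l) (rev l ++ [(y, x)])) := by
            rw [sum_comm]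
            refine sum_congr rfl fun y _ => ?_
            rw [ev_sum, mul_sum]
            refine sum_congr rfl fun x _ => ?_
            rw [ev_smul, mul_assoc]
      _ = ∑ y, C.pi y * ev C (T + 1) y (fun l => G y l) := by
            calc
              _ = ∑ y, C.pi y * ev C T y
                  (fun l => (fun v m => ∑ x, C.P (endpt v m) x * G v (m ++ [(endpt v m, x)]))
                    (endpt y l) (rev l)) := by
                  refine sum_congr rfl fun y _ => ?_
                  congr 1
                  refine ev_congr C T y _ _ fun l _ hl => ?_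
                  have he : endpt (endpt y l) (rev l) = y := by
                    cases l with
                    | nil => simp [endpt, rev]
                    | cons a m =>
                      have ha : a.1 = y := hl a (by simp)
                      simp [endpt, rev, ← ha]
                  simp only [he]
              _ = ∑ y, C.pi y * ev C T y
                  (fun m => ∑ x, C.P (endpt y m) x * G y (m ++ [(endpt y m, x)])) :=
                  ih (fun v m => ∑ x, C.P (endpt v m) x * G v (m ++ [(endpt v m, x)]))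
              _ = _ := sum_congr rfl fun y _ => by rw [ev_last C T y]


/-- Functionals of at most cubic growth. -/
def Good (F : List (S × S) → ℝ) : Prop := ∃ b : ℝ, 0 ≤ b ∧ ∀ l, |F l| ≤ b * ((l.length : ℝ) + 1) ^ 3

omit [Fintype S] in
theorem Good.const (a : ℝ) : Good (fun _ : List (S × S) => a) :=
  ⟨|a|, abs_nonneg a, fun l => le_mul_of_one_le_right (abs_nonneg a)
    (one_le_pow₀ (by linarith [(l.length.cast_nonneg : (0:ℝ) ≤ l.length)]))⟩

omit [Fintype S] in
theorem Good.add {F G : List (S × S) → ℝ} (hF : Good F) (hG : Good G) :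
    Good (fun l => F l + G l) := by
  obtain ⟨a, ha, hF⟩ := hF
  obtain ⟨b, hb, hG⟩ := hG
  exact ⟨a + b, by positivity, fun l => (abs_add_le _ _).trans (by linarith [hF l, hG l])⟩

omit [Fintype S] in
theorem Good.smul {F : List (S × S) → ℝ} (a : ℝ) (hF : Good F) :
    Good (fun l => a * F l) := by
  obtain ⟨b, hb, hF⟩ := hF
  refine ⟨|a| * b, by positivity, fun l => ?_⟩
  rw [abs_mul, mul_assoc]
  exact mul_le_mul_of_nonneg_left (hF l) (abs_nonneg a)

omit [Fintype S] in
theorem Good.sum {ι : Type*} (s : Finset ι) {H : ι → List (S × S) → ℝ}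
    (h : ∀ i ∈ s, Good (H i)) : Good (fun l => ∑ i ∈ s, H i l) := by
  induction s using Finset.cons_induction with
  | empty => simpa using Good.const (S := S) 0
  | cons a s ha ih =>
    simp only [sum_cons]
    exact (h a (mem_cons_self a s)).add (ih fun i hi => h i (mem_cons_of_mem hi))

omit [Fintype S] in
theorem Good.shift {F : List (S × S) → ℝ} (hF : Good F) (e : S × S) :
    Good (fun l => F (e :: l)) := by
  obtain ⟨b, hb, hF⟩ := hF
  refine ⟨8 * b, by positivity, fun l => (hF _).trans ?_⟩
  have h0 : (0:ℝ) ≤ l.length := Nat.cast_nonneg _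
  have h1 : ((l.length : ℝ) + 1 + 1) ^ 3 ≤ (2 * ((l.length : ℝ) + 1)) ^ 3 :=
    pow_le_pow_left₀ (by positivity) (by linarith) 3
  push_cast [List.length_cons]
  calc b * ((l.length : ℝ) + 1 + 1) ^ 3 ≤ b * (2 * ((l.length : ℝ) + 1)) ^ 3 :=
        mul_le_mul_of_nonneg_left h1 hb
    _ = 8 * b * ((l.length : ℝ) + 1) ^ 3 := by ring

omit [Fintype S] in
theorem Good.of_le {F G : List (S × S) → ℝ} (hG : Good G) (h : ∀ l, |F l| ≤ |G l|) : Good F := by
  obtain ⟨b, hb, hG⟩ := hG
  exact ⟨b, hb, fun l => (h l).trans (hG l)⟩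

/-- Expectation with horizon `T` of probability `(1 - k) * k ^ T`. -/
noncomputable def Eg (k : ℝ) (F : List (S × S) → ℝ) (x : S) : ℝ :=
  ∑' T : ℕ, (1 - k) * k ^ T * ev C T x F

variable {k : ℝ}

theorem summable_ev (hk0 : 0 ≤ k) (hk1 : k < 1) {F : List (S × S) → ℝ} (hF : Good F) (x : S) :
    Summable (fun T : ℕ => (1 - k) * k ^ T * ev C T x F) := by
  obtain ⟨b, hb, hF⟩ := hF
  have hs : Summable (fun T : ℕ => (1 - k) * b * (8 * ((T : ℝ) ^ 3 * k ^ T + k ^ T))) := by
    apply Summable.mul_left
    apply Summable.mul_left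
    exact (summable_pow_mul_geometric_of_norm_lt_one 3
      (by rwa [Real.norm_eq_abs, abs_of_nonneg hk0])).add (summable_geometric_of_lt_one hk0 hk1)
  apply Summable.of_norm_bounded hs
  intro T
  rw [Real.norm_eq_abs, abs_mul, abs_of_nonneg (mul_nonneg (by linarith) (pow_nonneg hk0 T))]
  have hT : |ev C T x F| ≤ b * ((T : ℝ) + 1) ^ 3 :=
    abs_ev_le C T x F _ fun l hl => by simpa [hl] using hF l
  have hp : ((T : ℝ) + 1) ^ 3 ≤ 8 * ((T : ℝ) ^ 3 + 1) := by
    have : (0:ℝ) ≤ T := Nat.cast_nonneg _
    nlinarith [sq_nonneg ((T : ℝ) - 1), mul_nonneg this (sq_nonneg ((T : ℝ) - 1))]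
  calc _ ≤ (1 - k) * k ^ T * (b * (8 * ((T : ℝ) ^ 3 + 1))) :=
        mul_le_mul_of_nonneg_left (hT.trans (mul_le_mul_of_nonneg_left hp hb))
          (mul_nonneg (by linarith) (pow_nonneg hk0 T))
    _ = _ := by ring

theorem Eg_add (hk0 : 0 ≤ k) (hk1 : k < 1) {F G : List (S × S) → ℝ} (hF : Good F) (hG : Good G)
    (x : S) : Eg C k (fun l => F l + G l) x = Eg C k F x + Eg C k G x := by
  unfold Eg
  rw [← (summable_ev C hk0 hk1 hF x).tsum_add (summable_ev C hk0 hk1 hG x)]
  exact tsum_congr fun T => by rw [ev_add]; ring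

theorem Eg_smul (a : ℝ) (F : List (S × S) → ℝ) (x : S) :
    Eg C k (fun l => a * F l) x = a * Eg C k F x := by
  unfold Eg
  rw [← tsum_mul_left]
  exact tsum_congr fun T => by rw [ev_smul]; ring

theorem Eg_const (hk0 : 0 ≤ k) (hk1 : k < 1) (a : ℝ) (x : S) :
    Eg C k (fun _ => a) x = a := by
  unfold Eg
  simp only [ev_const]
  rw [tsum_mul_right, tsum_mul_left, tsum_geometric_of_lt_one hk0 hk1,
    mul_inv_cancel₀ (by linarith), one_mul]

theorem Eg_mono (hk0 : 0 ≤ k) (hk1 : k < 1) {F G : List (S × S) → ℝ} (hF : Good F) (hG : Good G)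
    (h : ∀ l, F l ≤ G l) (x : S) : Eg C k F x ≤ Eg C k G x :=
  (summable_ev C hk0 hk1 hF x).tsum_le_tsum
    (fun T => mul_le_mul_of_nonneg_left (ev_mono C T x F G fun l _ => h l)
      (mul_nonneg (by linarith) (pow_nonneg hk0 T))) (summable_ev C hk0 hk1 hG x)

theorem Eg_nonneg (hk0 : 0 ≤ k) (hk1 : k < 1) {F : List (S × S) → ℝ} (hF : Good F)
    (h : ∀ l, 0 ≤ F l) (x : S) : 0 ≤ Eg C k F x := by
  simpa [Eg_const C hk0 hk1] using Eg_mono C hk0 hk1 (Good.const 0) hF h x

theorem Eg_sum (hk0 : 0 ≤ k) (hk1 : k < 1) {ι : Type*} (s : Finset ι)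
    {H : ι → List (S × S) → ℝ} (h : ∀ i ∈ s, Good (H i)) (x : S) :
    Eg C k (fun l => ∑ i ∈ s, H i l) x = ∑ i ∈ s, Eg C k (H i) x := by
  induction s using Finset.cons_induction with
  | empty => simp [Eg_const C hk0 hk1]
  | cons a s ha ih =>
    simp only [sum_cons]
    rw [Eg_add C hk0 hk1 (h a (mem_cons_self a s))
      (Good.sum s fun i hi => h i (mem_cons_of_mem hi)), ih fun i hi => h i (mem_cons_of_mem hi)]

theorem Eg_step (hk0 : 0 ≤ k) (hk1 : k < 1) {F : List (S × S) → ℝ} (hF : Good F) (x : S) :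
    Eg C k F x = (1 - k) * F [] + k * ∑ y, C.P x y * Eg C k (fun l => F ((x, y) :: l)) y := by
  unfold Eg
  rw [(summable_ev C hk0 hk1 hF x).tsum_eq_zero_add]
  simp only [pow_zero, mul_one, ev]
  congr 1
  simp only [← tsum_mul_left]
  rw [← Summable.tsum_finsetSum fun y _ =>
    ((summable_ev C hk0 hk1 (hF.shift (x, y)) y).mul_left (C.P x y))]
  rw [← tsum_mul_left]
  refine tsum_congr fun T => ?_
  rw [mul_sum, mul_sum]
  exact sum_congr rfl fun y _ => by ring

/-- Stationary expectation of `Eg`. -/
noncomputable def Egs (k : ℝ) (F : List (S × S) → ℝ) : ℝ := ∑ x, C.pi x * Eg C k F x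

theorem Egs_rev (hk0 : 0 ≤ k) (hk1 : k < 1) {F : List (S × S) → ℝ} (hF : Good F)
    (hF' : Good (fun l => F (rev l))) :
    Egs C k (fun l => F (rev l)) = Egs C k F := by
  unfold Egs Eg
  simp only [← tsum_mul_left]
  rw [← Summable.tsum_finsetSum fun x _ => (summable_ev C hk0 hk1 hF' x).mul_left _,
    ← Summable.tsum_finsetSum fun x _ => (summable_ev C hk0 hk1 hF x).mul_left _]
  refine tsum_congr fun T => ?_
  have h := ev_reverse C T (fun _ => F)
  have e : ∀ (G : List (S × S) → ℝ),
      ∑ x, C.pi x * ((1 - k) * k ^ T * ev C T x G) =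
        (1 - k) * k ^ T * ∑ x, C.pi x * ev C T x G := fun G => by
    rw [mul_sum]; exact sum_congr rfl fun x _ => by ring
  rw [e, e, h]

end Vale.Agent.P125.GC
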