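import Vale.Agent.P125.GC.Type

/-! Binary trees fixed by the summing operator. -/

namespace Vale.Agent.P125.GC

open Finset

/-- Uniform probability vector on the `m`-th dyadic block of level `d` in `Fin (2 ^ N)`. -/
noncomputable def node (N d m : ℕ) : Fin (2 ^ N) → ℝ :=
  fun i => if i.1 / 2 ^ (N - d) = m then ((2:ℝ) ^ (N - d))⁻¹ else 0

theorem node_sum (N d m : ℕ) (hd : d ≤ N) (hm : m < 2 ^ d) : ∑ i, node N d m i = 1 := by
  unfold node
  rw [Fin.sum_univ_eq_sum_range (fun i => if i / 2 ^ (N - d) = m then ((2:ℝ) ^ (N - d))⁻¹ else 0),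
    ← sum_filter]
  have hs : 0 < 2 ^ (N - d) := by positivity
  have hN : 2 ^ N = 2 ^ d * 2 ^ (N - d) := by rw [← pow_add]; congr 1; omega
  have h : (range (2 ^ N)).filter (fun i => i / 2 ^ (N - d) = m) =
      Ico (m * 2 ^ (N - d)) ((m + 1) * 2 ^ (N - d)) := by
    ext i
    have h1 := Nat.le_div_iff_mul_le hs (x := m) (y := i)
    have h2 := Nat.div_lt_iff_lt_mul hs (x := i) (y := m + 1)
    have h3 : (m + 1) * 2 ^ (N - d) ≤ 2 ^ N := by
      rw [hN]; exact Nat.mul_le_mul_right _ hm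
    simp only [mem_filter, mem_range, mem_Ico]
    omega
  rw [h, sum_const, Nat.card_Ico, ← Nat.sub_mul, Nat.add_sub_cancel_left, one_mul, nsmul_eq_mul]
  push_cast
  rw [mul_inv_cancel₀ (by positivity)]

theorem node_spec (N d m : ℕ) (hd : d ≤ N) (hm : m < 2 ^ d) :
    ∑ i, |node N d m i| = 1 ∧ (d < N →
      node N d m = (1 / 2 : ℝ) • (node N (d + 1) (2 * m) + node N (d + 1) (2 * m + 1)) ∧
      1 ≤ ‖summing (node N (d + 1) (2 * m) - node N (d + 1) (2 * m + 1))‖) := by
  refine ⟨?_, fun hlt => ⟨?_, ?_⟩⟩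
  · refine (sum_congr rfl fun i _ => abs_of_nonneg ?_).trans (node_sum N d m hd hm)
    unfold node; split_ifs <;> positivity
  · have hp : N - d = (N - (d + 1)) + 1 := by omega
    funext i
    simp only [node, Pi.smul_apply, Pi.add_apply, smul_eq_mul, hp]
    rw [pow_succ 2 (N - (d + 1)), ← Nat.div_div_eq_div_mul, pow_succ (2:ℝ)]
    by_cases h : i.1 / 2 ^ (N - (d + 1)) / 2 = m
    · rw [if_pos h]
      rcases (by omega : i.1 / 2 ^ (N - (d + 1)) = 2 * m ∨
          i.1 / 2 ^ (N - (d + 1)) = 2 * m + 1) with h' | h'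
      · rw [if_pos h', if_neg (by omega)]; field_simp; ring
      · rw [if_pos h', if_neg (by omega)]; field_simp; ring
    · rw [if_neg h, if_neg (by omega), if_neg (by omega)]; ring
  · set s := 2 ^ (N - (d + 1)) with hs
    have hs0 : 0 < s := by positivity
    have hN : 2 ^ N = 2 ^ (d + 1) * s := by rw [hs, ← pow_add]; congr 1; omega
    have hm2 : 2 * m + 1 < 2 ^ (d + 1) := by rw [pow_succ]; omega
    have hle : (2 * m + 1) * s ≤ 2 ^ N := by rw [hN]; exact Nat.mul_le_mul_right _ hm2.le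
    have hpos : 0 < (2 * m + 1) * s := Nat.mul_pos (by omega) hs0
    let a : Fin (2 ^ N) := ⟨(2 * m + 1) * s - 1, by omega⟩
    have hsum : summing (node N (d + 1) (2 * m) - node N (d + 1) (2 * m + 1)) a = 1 := by
      have e : summing (node N (d + 1) (2 * m) - node N (d + 1) (2 * m + 1)) a =
          ∑ i ∈ Finset.Iic a, node N (d + 1) (2 * m) i := by
        refine sum_congr rfl fun i hi => ?_
        have hi' : i.1 ≤ (2 * m + 1) * s - 1 := Fin.le_def.1 (Finset.mem_Iic.1 hi)
        have : i.1 / s < 2 * m + 1 := (Nat.div_lt_iff_lt_mul hs0).2 (by omega)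
        simp only [Pi.sub_apply, node, ← hs]
        rw [if_neg (show ¬ i.1 / s = 2 * m + 1 by omega), sub_zero]
      rw [e]
      refine (sum_subset (subset_univ _) ?_).trans (node_sum N (d + 1) (2 * m) (by omega) (by omega))
      intro i _ hi
      have hi' : ¬ i.1 ≤ (2 * m + 1) * s - 1 := fun h => hi (Finset.mem_Iic.2 (Fin.le_def.2 h))
      have : 2 * m + 1 ≤ i.1 / s := (Nat.le_div_iff_mul_le hs0).2 (by omega)
      simp only [node, ← hs]
      rw [if_neg (by omega)]
    have h := norm_le_pi_norm (summing (node N (d + 1) (2 * m) - node N (d + 1) (2 * m + 1))) a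
    rw [hsum, norm_one] at h
    exact h

end Vale.Agent.P125.GC
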