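import Vale.Agent.P125.GC.ClassBound

/-! Markov type of the summing operator, by summation over dyadic weight classes. -/

namespace Vale.Agent.P125.GC

open Finset

/-- The summing operator: partial sums. -/
def summing {n : ℕ} (v : Fin n → ℝ) : Fin n → ℝ := fun a => ∑ i ∈ Finset.Iic a, v i

/-- Extension by zero. -/
def ext0 {n : ℕ} (v : Fin n → ℝ) (i : ℕ) : ℝ := if h : i < n then v ⟨i, h⟩ else 0

/-- Sup norm on `[0, n)`. -/
noncomputable def mx (n : ℕ) (v : ℕ → ℝ) : ℝ := ‖fun a : Fin n => v a‖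

theorem mx_nonneg (n : ℕ) (v : ℕ → ℝ) : 0 ≤ mx n v := norm_nonneg _

theorem le_mx {n : ℕ} (v : ℕ → ℝ) {a : ℕ} (ha : a < n) : |v a| ≤ mx n v :=
  norm_le_pi_norm (fun a : Fin n => v a) ⟨a, ha⟩

theorem mx_le {n : ℕ} (v : ℕ → ℝ) {b : ℝ} (hb : 0 ≤ b) (h : ∀ a, a < n → |v a| ≤ b) : mx n v ≤ b :=
  (pi_norm_le_iff_of_nonneg hb).2 fun a => h a a.2

theorem summing_norm {n : ℕ} (v : Fin n → ℝ) : ‖summing v‖ = mx n (pre (ext0 v)) := by
  refine congrArg (fun w : Fin n → ℝ => ‖w‖) (funext fun a => ?_)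
  have h : range (a.1 + 1) = (Finset.Iic a).map Fin.valEmbedding := by
    rw [Fin.map_valEmbedding_Iic]; ext i; simp
  simp only [pre, summing, h, sum_map]
  exact sum_congr rfl fun i _ => by simp [ext0]

theorem sum_ext0 {n : ℕ} (v : Fin n → ℝ) : ∑ i ∈ range n, |ext0 v i| = ∑ i, |v i| := by
  rw [← Fin.sum_univ_eq_sum_range (fun i => |ext0 v i|) n]
  simp [ext0]

theorem two_zpow_sum (s : Finset ℤ) : ∀ m : ℤ, (∀ j ∈ s, j < m) → ∑ j ∈ s, (2:ℝ) ^ j ≤ 2 ^ m := by
  induction s using Finset.induction_on_max with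
  | empty => intro m _; simp; positivity
  | insert a s hlt ih =>
    intro m h
    rw [sum_insert (fun hm => lt_irrefl a (hlt a hm))]
    have h1 := ih a hlt
    have h2 : (2:ℝ) ^ (a + 1) ≤ 2 ^ m := zpow_le_zpow_right₀ one_le_two (h a (mem_insert_self a s))
    rw [zpow_add_one₀ two_ne_zero] at h2
    linarith

variable {S : Type*}

/-- The dyadic class of a weight. -/
noncomputable def cls (w : ℝ) : ℤ := Int.log 2 w

/-- The normalised part of an antisymmetric edge function in one weight class. -/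
noncomputable def classEdge (n : ℕ) (u : S → S → ℕ → ℝ) (hu : ∀ x y i, u y x i = -u x y i)
    (j : ℤ) : Edge S n where
  c x y := if 0 < ∑ i ∈ range n, |u x y i| ∧ cls (∑ i ∈ range n, |u x y i|) = j then 1 else 0
  u x y i := if 0 < ∑ i ∈ range n, |u x y i| ∧ cls (∑ i ∈ range n, |u x y i|) = j
    then u x y i / 2 ^ (j + 1) else 0
  c0 x y := by split_ifs <;> norm_num
  c1 x y := by split_ifs <;> norm_num
  csymm x y := by simp only [hu x y, abs_neg]
  anti x y i := by
    simp only [hu x y, abs_neg]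
    split_ifs <;> ring
  hu x y := by
    split_ifs with h
    · simp only [abs_div, ← sum_div]
      rw [div_le_one (by positivity), abs_of_pos (by positivity : (0:ℝ) < 2 ^ (j + 1))]
      have := Int.lt_zpow_succ_log_self (b := 2) one_lt_two (∑ i ∈ range n, |u x y i|)
      rw [show Int.log 2 (∑ i ∈ range n, |u x y i|) = j from h.2] at this
      exact_mod_cast this.le
    · simp

/-- Prefix sums accumulated along a path. -/
def Stot (u : S → S → ℕ → ℝ) : List (S × S) → ℕ → ℝ
  | [], _ => 0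
  | e :: l, a => pre (u e.1 e.2) a + Stot u l a

variable {n : ℕ}

theorem cnt_nat (E : Edge S n) (h : ∀ x y, E.c x y = 0 ∨ E.c x y = 1) (l : List (S × S)) :
    ∃ m : ℕ, m ≤ l.length ∧ cnt E l = m := by
  induction l with
  | nil => exact ⟨0, le_rfl, by simp [cnt]⟩
  | cons e l ih =>
    obtain ⟨m, hm, hc⟩ := ih
    rcases h e.1 e.2 with h0 | h0
    · exact ⟨m, by simp; omega, by simp [cnt, cw, h0, hc]⟩
    · exact ⟨m + 1, by simp; omega, by simp [cnt, cw, h0, hc]; ring⟩

/-- The dyadic level of a number of visits. -/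
noncomputable def lev (L : ℕ) (x : ℝ) : ℝ := if (2:ℝ) ^ L ≤ x ∧ x < 2 ^ (L + 1) then 1 else 0

theorem lev_nonneg (L : ℕ) (x : ℝ) : 0 ≤ lev L x := by unfold lev; split_ifs <;> norm_num

theorem lev_le_one (L : ℕ) (x : ℝ) : lev L x ≤ 1 := by unfold lev; split_ifs <;> norm_num

theorem mx_cube (E : Edge S n) (l : List (S × S)) :
    mx n (Sg E l) ^ 3 ≤ 3 * ∑ a ∈ range n, Sg E l a ^ 2 * Al E l a := by
  have h0 : 0 ≤ ∑ a ∈ range n, Sg E l a ^ 2 * Al E l a :=
    sum_nonneg fun a _ => mul_nonneg (sq_nonneg _) (Al_nonneg E l a)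
  rcases Nat.eq_zero_or_pos n with hn | hn
  · have : mx n (Sg E l) = 0 :=
      le_antisymm (mx_le _ le_rfl fun a ha => absurd ha (by omega)) (mx_nonneg _ _)
    rw [this]; norm_num; exact h0
  · obtain ⟨a, ha, hmax⟩ := (range n).exists_max_image (fun a => |Sg E l a|) ⟨0, by simpa using hn⟩
    have ha' := mem_range.1 ha
    have : mx n (Sg E l) = |Sg E l a| :=
      le_antisymm (mx_le _ (abs_nonneg _) fun b hb => hmax b (mem_range.2 hb)) (le_mx _ ha')
    rw [this]
    refine (cube_le E l a ha').trans (mul_le_mul_of_nonneg_left ?_ (by norm_num))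
    exact sum_le_sum_of_subset_of_nonneg (range_subset_range.2 ha')
      fun b _ _ => mul_nonneg (sq_nonneg _) (Al_nonneg E l b)

variable [Fintype S] (C : Chain S) {k : ℝ}

theorem Egs_cnt (E : Edge S n) (hk0 : 0 ≤ k) (hk1 : k < 1) :
    (1 - k) * Egs C k (cnt E) ≤ edgeMass E C := by
  have g : Good (cnt E) := by
    refine ⟨1, zero_le_one, fun l => ?_⟩
    rw [abs_of_nonneg (cnt_nonneg E l), one_mul]
    have h := cnt_le_length E l
    have h1 : (1:ℝ) ≤ (l.length : ℝ) + 1 := by linarith [(l.length.cast_nonneg : (0:ℝ) ≤ _)]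
    nlinarith [le_self_pow₀ h1 (three_ne_zero : (3:ℕ) ≠ 0)]
  have h : ∀ x, Eg C k (cnt E) x = k * ∑ y, C.P x y * (E.c x y + Eg C k (cnt E) y) := by
    intro x
    rw [Eg_step C hk0 hk1 g x]
    have : ∀ y, (fun l => cnt E ((x, y) :: l)) = fun l => cw E (x, y) + cnt E l :=
      fun y => funext fun l => rfl
    simp only [this, Eg_add C hk0 hk1 (Good.const _) g, Eg_const C hk0 hk1]
    simp [cnt, cw]
  have hs : ∑ x, ∑ y, C.pi x * C.P x y * Eg C k (cnt E) y = Egs C k (cnt E) := by
    rw [sum_comm]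
    refine sum_congr rfl fun y _ => ?_
    rw [← sum_mul]
    congr 1
    calc ∑ x, C.pi x * C.P x y = ∑ x, C.pi y * C.P y x := sum_congr rfl fun x _ => C.balance x y
      _ = _ := by rw [← mul_sum, C.P_sum, mul_one]
  have e : Egs C k (cnt E) = k * (edgeMass E C + Egs C k (cnt E)) := by
    have h' : Egs C k (cnt E) =
        ∑ x, C.pi x * (k * ∑ y, C.P x y * (E.c x y + Eg C k (cnt E) y)) :=
      sum_congr rfl fun x _ => by rw [← h x]
    conv_lhs => rw [h']
    rw [← hs, edgeMass, ← sum_add_distrib, mul_sum]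
    refine sum_congr rfl fun x _ => ?_
    simp only [← sum_add_distrib, mul_sum]
    exact sum_congr rfl fun y _ => by ring
  have h0 : 0 ≤ edgeMass E C := sum_nonneg fun x _ => sum_nonneg fun y _ =>
    mul_nonneg (mul_nonneg (C.pi_nonneg x) (C.P_nonneg x y)) (E.c0 x y)
  nlinarith [mul_nonneg (sub_nonneg.2 hk1.le) h0]

theorem level_bound (E : Edge S n) (hk0 : 0 ≤ k) (hk1 : k < 1) {q : ℝ} (hq1 : 1 ≤ q) (hq3 : q ≤ 3)
    (L : ℕ) :
    (1 - k) * Egs C k (fun l => lev L (cnt E l) * mx n (Sg E l) ^ q) ≤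
      4000000 * ((2:ℝ) ^ (8 * q / 9 - 1)) ^ L * edgeMass E C := by
  set A : ℝ := (2:ℝ) ^ L with hA
  have hA0 : 0 < A := by positivity
  have hA1 : 1 ≤ A := one_le_pow₀ one_le_two
  set eps : ℝ := 1 / (8 * A) with heps
  have he0 : 0 < eps := by positivity
  have he1 : eps ≤ 1 := by rw [heps, div_le_one (by positivity)]; linarith
  set lam : ℝ := A ^ (8 / 9 : ℝ) with hlam
  have hl0 : 0 < lam := Real.rpow_pos_of_pos hA0 _
  set X : List (S × S) → ℝ := fun l => wt E eps l * ∑ a ∈ range n, Sg E l a ^ 2 * Al E l a with hX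
  have hX0 : ∀ l, 0 ≤ X l := fun l => mul_nonneg (wt_bounds E he0.le he1 l).1
    (sum_nonneg fun a _ => mul_nonneg (sq_nonneg _) (Al_nonneg E l a))
  have gX : Good X := by
    refine abs_wt_mul_good E he0.le he1 1 zero_le_one fun l => ?_
    have hn := cnt_nonneg E l
    calc |∑ a ∈ range n, Sg E l a ^ 2 * Al E l a| ≤ ∑ a ∈ range n, cnt E l ^ 2 * Al E l a :=
          (abs_sum_le_sum_abs _ _).trans (sum_le_sum fun a ha => by
            rw [abs_mul, abs_of_nonneg (Al_nonneg E l a), abs_pow]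
            exact mul_le_mul_of_nonneg_right
              (pow_le_pow_left₀ (abs_nonneg _) (Sg_le E l (mem_range.1 ha)) 2) (Al_nonneg E l a))
      _ ≤ cnt E l ^ 2 * cnt E l := by
          rw [← mul_sum]; exact mul_le_mul_of_nonneg_left (Al_sum E l) (sq_nonneg _)
      _ ≤ _ := by nlinarith [mul_nonneg hn hn]
  have gN : Good (cnt E) := by
    refine ⟨1, zero_le_one, fun l => ?_⟩
    rw [abs_of_nonneg (cnt_nonneg E l), one_mul]
    have h := cnt_le_length E l
    have h1 : (1:ℝ) ≤ (l.length : ℝ) + 1 := by linarith [(l.length.cast_nonneg : (0:ℝ) ≤ _)]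
    nlinarith [le_self_pow₀ h1 (three_ne_zero : (3:ℕ) ≠ 0)]
  have hpt : ∀ l, lev L (cnt E l) * mx n (Sg E l) ^ q ≤
      4 * lam ^ (q - 3) * X l + lam ^ q / A * cnt E l := by
    intro l
    have hM := mx_nonneg n (Sg E l)
    have hR : 0 ≤ 4 * lam ^ (q - 3) * X l + lam ^ q / A * cnt E l :=
      add_nonneg (mul_nonneg (by positivity) (hX0 l)) (mul_nonneg (by positivity) (cnt_nonneg E l))
    unfold lev
    split_ifs with h
    · rw [one_mul]
      by_cases hml : mx n (Sg E l) ≤ lam
      · have h1 : mx n (Sg E l) ^ q ≤ lam ^ q := Real.rpow_le_rpow hM hml (by linarith)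
        have h2 : lam ^ q ≤ lam ^ q / A * cnt E l := by
          rw [div_mul_eq_mul_div, le_div_iff₀ hA0]
          exact mul_le_mul_of_nonneg_left h.1 (by positivity)
        have h3 : 0 ≤ 4 * lam ^ (q - 3) * X l := mul_nonneg (by positivity) (hX0 l)
        linarith
      · push Not at hml
        have hm0 : 0 < mx n (Sg E l) := hl0.trans hml
        have h1 : mx n (Sg E l) ^ q ≤ lam ^ (q - 3) * mx n (Sg E l) ^ 3 := by
          have e : mx n (Sg E l) ^ q = mx n (Sg E l) ^ (q - 3) * mx n (Sg E l) ^ 3 := by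
            rw [← Real.rpow_natCast _ 3, ← Real.rpow_add hm0]; norm_num
          rw [e]
          exact mul_le_mul_of_nonneg_right
            (Real.rpow_le_rpow_of_nonpos hl0 hml.le (by linarith)) (by positivity)
        have h2 : (3 / 4 : ℝ) ≤ wt E eps l := by
          refine le_trans ?_ (wt_bounds E he0.le he1 l).2.2.2.2
          have : eps * cnt E l ≤ 1 / 4 := by
            calc eps * cnt E l ≤ eps * (2 * A) := mul_le_mul_of_nonneg_left
                  (by rw [hA, ← pow_succ']; exact h.2.le) he0.le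
              _ = _ := by rw [heps]; field_simp; ring
          linarith
        have h3 : mx n (Sg E l) ^ 3 ≤ 4 * X l := by
          have hs : 0 ≤ ∑ a ∈ range n, Sg E l a ^ 2 * Al E l a :=
            sum_nonneg fun a _ => mul_nonneg (sq_nonneg _) (Al_nonneg E l a)
          have := mul_le_mul_of_nonneg_right h2 hs
          have := mx_cube E l
          simp only [hX]
          linarith
        have h4 : 0 ≤ lam ^ q / A * cnt E l := mul_nonneg (by positivity) (cnt_nonneg E l)
        nlinarith [mul_le_mul_of_nonneg_left h3 (Real.rpow_nonneg hl0.le (q - 3))]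
    · rw [zero_mul]; exact hR
  have gQ : Good (fun l => 4 * lam ^ (q - 3) * X l + lam ^ q / A * cnt E l) :=
    (gX.smul _).add (gN.smul _)
  have gM : Good (fun l => lev L (cnt E l) * mx n (Sg E l) ^ q) :=
    gQ.of_le fun l => by
      rw [abs_of_nonneg (mul_nonneg (lev_nonneg _ _) (Real.rpow_nonneg (mx_nonneg _ _) _))]
      exact (hpt l).trans (le_abs_self _)
  have hmono : Egs C k (fun l => lev L (cnt E l) * mx n (Sg E l) ^ q) ≤
      4 * lam ^ (q - 3) * Egs C k X + lam ^ q / A * Egs C k (cnt E) := by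
    simp only [Egs, mul_sum, ← sum_add_distrib]
    refine sum_le_sum fun x _ => ?_
    calc _ ≤ C.pi x * Eg C k (fun l => 4 * lam ^ (q - 3) * X l + lam ^ q / A * cnt E l) x :=
          mul_le_mul_of_nonneg_left (Eg_mono C hk0 hk1 gM gQ hpt x) (C.pi_nonneg x)
      _ = _ := by rw [Eg_add C hk0 hk1 (gX.smul _) (gN.smul _), Eg_smul, Eg_smul]; ring
  have hXb : (1 - k) * Egs C k X ≤ 30800 * eps ^ (-(5 / 3) : ℝ) * edgeMass E C :=
    tilted_bound E C hk0 hk1 he0 he1
  have hNb := Egs_cnt C E hk0 hk1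
  have hr : ((2:ℝ) ^ (8 * q / 9 - 1)) ^ L = A ^ (8 * q / 9 - 1) := by
    rw [hA, Real.rpow_pow_comm (by norm_num : (0:ℝ) ≤ 2)]
  have e1 : lam ^ (q - 3) * eps ^ (-(5 / 3) : ℝ) = 32 * A ^ (8 * q / 9 - 1) := by
    rw [heps, hlam, one_div, Real.inv_rpow (by positivity), ← Real.rpow_neg (by positivity),
      ← Real.rpow_mul hA0.le, Real.mul_rpow (by norm_num) hA0.le]
    have h32 : (8:ℝ) ^ (5 / 3 : ℝ) = 32 := by
      rw [show (8:ℝ) = 2 ^ (3:ℝ) by norm_num, ← Real.rpow_mul (by norm_num)]
      norm_num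
    rw [neg_neg, h32, mul_left_comm, ← Real.rpow_add hA0]
    congr 2
    ring
  have e2 : lam ^ q / A = A ^ (8 * q / 9 - 1) := by
    rw [hlam, ← Real.rpow_mul hA0.le, Real.rpow_sub hA0, Real.rpow_one]
    ring_nf
  have hp : 0 ≤ edgeMass E C := sum_nonneg fun x _ => sum_nonneg fun y _ =>
    mul_nonneg (mul_nonneg (C.pi_nonneg x) (C.P_nonneg x y)) (E.c0 x y)
  rw [hr]
  calc _ ≤ (1 - k) * (4 * lam ^ (q - 3) * Egs C k X + lam ^ q / A * Egs C k (cnt E)) :=
        mul_le_mul_of_nonneg_left hmono (by linarith)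
    _ = 4 * lam ^ (q - 3) * ((1 - k) * Egs C k X) + lam ^ q / A * ((1 - k) * Egs C k (cnt E)) := by
        ring
    _ ≤ 4 * lam ^ (q - 3) * (30800 * eps ^ (-(5 / 3) : ℝ) * edgeMass E C) +
          lam ^ q / A * edgeMass E C :=
        add_le_add (mul_le_mul_of_nonneg_left hXb (by positivity))
          (mul_le_mul_of_nonneg_left hNb (by positivity))
    _ = 4 * 30800 * (lam ^ (q - 3) * eps ^ (-(5 / 3) : ℝ)) * edgeMass E C +
          lam ^ q / A * edgeMass E C := by ring
    _ ≤ _ := by
        rw [e1, e2]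
        nlinarith [mul_nonneg (Real.rpow_nonneg hA0.le (8 * q / 9 - 1)) hp]

omit [Fintype S] in
theorem pointwise (u : S → S → ℕ → ℝ) (hu : ∀ x y i, u y x i = -u x y i) (J : Finset ℤ)
    (hJ : ∀ x y, cls (∑ i ∈ range n, |u x y i|) ∈ J) {q : ℝ} (hq1 : 1 ≤ q) (hq2 : q ≤ 2)
    (N : ℕ) (l : List (S × S)) (hl : l.length ≤ N) :
    mx n (Stot u l) ^ q ≤ 20 * ∑ L ∈ range (N + 1), ((L:ℝ) + 1) ^ 3 *
      ∑ j ∈ J, ((2:ℝ) ^ (j + 1)) ^ q * (lev L (cnt (classEdge n u hu j) l) *
        mx n (Sg (classEdge n u hu j) l) ^ q +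
        (1 / 2) ^ L * cnt (classEdge n u hu j) l) := by
  set m : ℤ → ℝ := fun j => 2 ^ (j + 1) * mx n (Sg (classEdge n u hu j) l) with hm
  set c : ℤ → ℝ := fun j => cnt (classEdge n u hu j) l with hc
  have hm0 : ∀ j, 0 ≤ m j := fun j => mul_nonneg (by positivity) (mx_nonneg _ _)
  have hc0 : ∀ j, 0 ≤ c j := fun j => cnt_nonneg _ _
  have hdec : ∀ (l : List (S × S)) a, a < n →
      Stot u l a = ∑ j ∈ J, (2:ℝ) ^ (j + 1) * Sg (classEdge n u hu j) l a := by
    intro l a ha
    induction l with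
    | nil => simp [Stot, Sg]
    | cons e l ih =>
      simp only [Stot, Sg, mul_add, sum_add_distrib, ← ih]
      congr 1
      by_cases hw : 0 < ∑ i ∈ range n, |u e.1 e.2 i|
      · rw [sum_eq_single_of_mem _ (hJ e.1 e.2)]
        · simp only [gs, pre, classEdge, hw, true_and, if_true, mul_sum]
          exact sum_congr rfl fun i _ => by field_simp
        · intro j _ hj
          simp only [gs, pre, classEdge, hw, true_and, Ne.symm hj, if_false, sum_const_zero,
            mul_zero]
      · have hz : ∀ i ∈ range (a + 1), u e.1 e.2 i = 0 := by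
          intro i hi
          have hin : i < n := by simp only [mem_range] at hi; omega
          have h0 : ∑ i ∈ range n, |u e.1 e.2 i| = 0 :=
            le_antisymm (not_lt.1 hw) (sum_nonneg fun i _ => abs_nonneg _)
          exact abs_eq_zero.1 ((sum_eq_zero_iff_of_nonneg fun i _ => abs_nonneg _).1 h0 i
            (mem_range.2 hin))
        simp only [gs, pre, classEdge, hw, false_and, if_false, sum_const_zero, mul_zero,
          sum_eq_zero hz]
  have hM : mx n (Stot u l) ≤ ∑ j ∈ J, m j := by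
    refine mx_le _ (sum_nonneg fun j _ => hm0 j) fun a ha => ?_
    rw [hdec l a ha]
    refine (abs_sum_le_sum_abs _ _).trans (sum_le_sum fun j _ => ?_)
    rw [abs_mul, abs_of_pos (by positivity : (0:ℝ) < 2 ^ (j + 1))]
    exact mul_le_mul_of_nonneg_left (le_mx _ ha) (by positivity)
  have hmc : ∀ j, m j ≤ 2 ^ (j + 1) * c j := fun j =>
    mul_le_mul_of_nonneg_left (mx_le _ (hc0 j) fun a ha => Sg_le _ l ha) (by positivity)
  set X : ℕ → ℝ := fun L => ∑ j ∈ J, lev L (c j) * m j with hX
  have hX0 : ∀ L, 0 ≤ X L := fun L => sum_nonneg fun j _ => mul_nonneg (lev_nonneg _ _) (hm0 j)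
  have hsum : ∑ j ∈ J, m j ≤ ∑ L ∈ range (N + 1), X L := by
    rw [sum_comm]
    refine sum_le_sum fun j _ => ?_
    rw [← sum_mul]
    obtain ⟨p, hp, hpc⟩ := cnt_nat (classEdge n u hu j)
      (fun x y => by simp only [classEdge]; split_ifs <;> simp) l
    rcases Nat.eq_zero_or_pos p with h0 | h0
    · have : m j ≤ 0 := by
        have := hmc j
        simp only [hc, hpc, h0, Nat.cast_zero, mul_zero] at this
        exact this
      exact this.trans (mul_nonneg (sum_nonneg fun L _ => lev_nonneg _ _) (hm0 j))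
    · refine le_mul_of_one_le_left (hm0 j) ?_
      have hL : Nat.log 2 p ∈ range (N + 1) := by
        have := Nat.log_le_self 2 p
        simp; omega
      refine le_trans (le_of_eq ?_) (single_le_sum (fun L _ => lev_nonneg L (c j)) hL)
      have h1 := Nat.pow_log_le_self 2 h0.ne'
      have h2 := Nat.lt_pow_succ_log_self (b := 2) one_lt_two p
      simp only [lev, hc, hpc]
      rw [if_pos ⟨by exact_mod_cast h1, by exact_mod_cast h2⟩]
  have hXq : ∀ L, X L ^ q ≤ 10 * ((L:ℝ) + 1) *
      ∑ j ∈ J, ((2:ℝ) ^ (j + 1)) ^ q * (lev L (c j) * mx n (Sg (classEdge n u hu j) l) ^ q +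
        (1 / 2) ^ L * c j) := by
    intro L
    have hRj : ∀ j, 0 ≤ ((2:ℝ) ^ (j + 1)) ^ q * (lev L (c j) *
        mx n (Sg (classEdge n u hu j) l) ^ q + (1 / 2) ^ L * c j) := fun j =>
      mul_nonneg (by positivity) (add_nonneg
        (mul_nonneg (lev_nonneg _ _) (Real.rpow_nonneg (mx_nonneg _ _) _))
        (mul_nonneg (by positivity) (hc0 j)))
    set Jl := J.filter (fun j => (2:ℝ) ^ L ≤ c j ∧ c j < 2 ^ (L + 1)) with hJl
    have hXL : X L = ∑ j ∈ Jl, m j := by
      rw [hX, hJl, sum_filter]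
      exact sum_congr rfl fun j _ => by unfold lev; split_ifs <;> simp
    rcases Jl.eq_empty_or_nonempty with he | hne
    · rw [hXL, he, sum_empty, Real.zero_rpow (by linarith)]
      exact mul_nonneg (by positivity) (sum_nonneg fun j _ => hRj j)
    · set t := Jl.max' hne with ht
      have htm : t ∈ Jl := max'_mem _ _
      have htJ : t ∈ J := (mem_filter.1 htm).1
      have htc := (mem_filter.1 htm).2
      set top := Jl.filter (fun j => t - 2 * (L:ℤ) ≤ j) with htop
      set rest : ℝ := ∑ j ∈ Jl.filter (fun j => ¬ t - 2 * (L:ℤ) ≤ j), m j with hrest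
      set b : ℝ := 2 * 2 ^ (t + 1) * (1 / 2) ^ L with hb
      have hrb : rest ≤ b := by
        calc rest ≤ ∑ j ∈ Jl.filter (fun j => ¬ t - 2 * (L:ℤ) ≤ j),
              2 * (2:ℝ) ^ j * 2 ^ (L + 1) := by
              refine sum_le_sum fun j hj => (hmc j).trans ?_
              have := (mem_filter.1 (mem_filter.1 hj).1).2.2
              rw [zpow_add_one₀ two_ne_zero]
              calc (2:ℝ) ^ j * 2 * c j ≤ 2 ^ j * 2 * 2 ^ (L + 1) :=
                    mul_le_mul_of_nonneg_left this.le (by positivity)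
                _ = _ := by ring
          _ ≤ 2 * (2:ℝ) ^ (t - 2 * (L:ℤ)) * 2 ^ (L + 1) := by
              rw [← sum_mul, ← mul_sum]
              refine mul_le_mul_of_nonneg_right (mul_le_mul_of_nonneg_left ?_ (by norm_num))
                (by positivity)
              exact two_zpow_sum _ _ fun j hj => not_le.1 (mem_filter.1 hj).2
          _ = _ := by
              rw [hb, zpow_sub₀ two_ne_zero, zpow_add_one₀ two_ne_zero, pow_succ,
                show (2 * (L:ℤ)) = ((L + L : ℕ) : ℤ) by push_cast; ring, zpow_natCast, pow_add,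
                div_pow, one_pow]
              field_simp
      have hb0 : 0 ≤ b := by positivity
      have hXle : X L ≤ (∑ j ∈ top, m j) + b := by
        rw [hXL, ← sum_filter_add_sum_filter_not Jl (fun j => t - 2 * (L:ℤ) ≤ j)]
        linarith
      have hcard : (top.card : ℝ) + 1 ≤ 2 * ((L:ℝ) + 1) := by
        have hsub : top ⊆ Finset.Icc (t - 2 * (L:ℤ)) t := fun j hj =>
          mem_Icc.2 ⟨(mem_filter.1 hj).2, le_max' _ j (mem_filter.1 hj).1⟩
        have h := card_le_card hsub
        rw [Int.card_Icc] at h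
        have h2 : top.card ≤ 2 * L + 1 := by omega
        have h3 : (top.card : ℝ) ≤ 2 * (L:ℝ) + 1 := by exact_mod_cast h2
        linarith
      have hpow : ((∑ j ∈ top, m j) + b) ^ q ≤
          ((top.card : ℝ) + 1) * ((∑ j ∈ top, m j ^ q) + b ^ q) := by
        have hb' : ∀ o : Option ℤ, 0 ≤ o.elim b m := fun o => by cases o <;> simp [hb0, hm0]
        have h := Real.rpow_sum_le_const_mul_sum_rpow_of_nonneg (s := insertNone top)
          (f := fun o => o.elim b m) hq1 (fun o _ => hb' o)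
        simp only [sum_insertNone, Option.elim_none, Option.elim_some, card_insertNone] at h
        rw [add_comm b, add_comm (b ^ q)] at h
        refine h.trans (mul_le_mul_of_nonneg_right ?_
          (add_nonneg (sum_nonneg fun j _ => Real.rpow_nonneg (hm0 j) _) (Real.rpow_nonneg hb0 _)))
        push_cast
        calc ((top.card : ℝ) + 1) ^ (q - 1) ≤ ((top.card : ℝ) + 1) ^ (1:ℝ) :=
              Real.rpow_le_rpow_of_exponent_le
                (by linarith [(top.card.cast_nonneg : (0:ℝ) ≤ _)]) (by linarith)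
          _ = _ := Real.rpow_one _
      have htopb : ∑ j ∈ top, m j ^ q ≤ ∑ j ∈ J, ((2:ℝ) ^ (j + 1)) ^ q * (lev L (c j) *
          mx n (Sg (classEdge n u hu j) l) ^ q + (1 / 2) ^ L * c j) := by
        refine (sum_le_sum fun j hj => ?_).trans (sum_le_sum_of_subset_of_nonneg
          ((filter_subset _ _).trans (filter_subset _ _)) fun j _ _ => hRj j)
        have hjl := (mem_filter.1 (mem_filter.1 hj).1).2
        rw [hm, Real.mul_rpow (by positivity) (mx_nonneg _ _)]
        refine mul_le_mul_of_nonneg_left ?_ (by positivity)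
        simp only [lev, if_pos hjl, one_mul]
        linarith [mul_nonneg (pow_nonneg (by norm_num : (0:ℝ) ≤ 1 / 2) L) (hc0 j)]
      have hbq : b ^ q ≤ 4 * ∑ j ∈ J, ((2:ℝ) ^ (j + 1)) ^ q * (lev L (c j) *
          mx n (Sg (classEdge n u hu j) l) ^ q + (1 / 2) ^ L * c j) := by
        have h1 : b ^ q ≤ 4 * ((2:ℝ) ^ (t + 1)) ^ q * (1 / 2) ^ L := by
          rw [hb, Real.mul_rpow (by positivity) (by positivity),
            Real.mul_rpow (by norm_num) (by positivity)]
          have p1 : (2:ℝ) ^ q ≤ 4 := by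
            calc (2:ℝ) ^ q ≤ 2 ^ (2:ℝ) := Real.rpow_le_rpow_of_exponent_le one_le_two hq2
              _ = 4 := by norm_num
          have p2 : (((1:ℝ) / 2) ^ L) ^ q ≤ (1 / 2) ^ L := by
            calc _ ≤ (((1:ℝ) / 2) ^ L) ^ (1:ℝ) :=
                  Real.rpow_le_rpow_of_exponent_ge (by positivity)
                    (pow_le_one₀ (by norm_num) (by norm_num)) hq1
              _ = _ := Real.rpow_one _
          exact mul_le_mul (mul_le_mul_of_nonneg_right p1 (by positivity)) p2 (by positivity)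
            (by positivity)
        have hct : (1:ℝ) ≤ c t := le_trans (one_le_pow₀ one_le_two) htc.1
        have hge : ((2:ℝ) ^ (t + 1)) ^ q * ((1 / 2) ^ L * c t) ≤
            ∑ j ∈ J, ((2:ℝ) ^ (j + 1)) ^ q * (lev L (c j) *
            mx n (Sg (classEdge n u hu j) l) ^ q + (1 / 2) ^ L * c j) := by
          refine le_trans (mul_le_mul_of_nonneg_left ?_ (by positivity))
            (single_le_sum (fun j _ => hRj j) htJ)
          linarith [mul_nonneg (lev_nonneg L (c t))
            (Real.rpow_nonneg (mx_nonneg n (Sg (classEdge n u hu t) l)) q)]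
        have : 0 ≤ ((2:ℝ) ^ (t + 1)) ^ q * (1 / 2) ^ L := by positivity
        nlinarith [mul_le_mul_of_nonneg_left hct this]
      calc X L ^ q ≤ ((∑ j ∈ top, m j) + b) ^ q := Real.rpow_le_rpow (hX0 L) hXle (by linarith)
        _ ≤ _ := hpow
        _ ≤ 2 * ((L:ℝ) + 1) * ((∑ j ∈ top, m j ^ q) + b ^ q) :=
            mul_le_mul_of_nonneg_right hcard (add_nonneg
              (sum_nonneg fun j _ => Real.rpow_nonneg (hm0 j) _) (Real.rpow_nonneg hb0 _))
        _ ≤ _ := by
            have hLp : (0:ℝ) ≤ 2 * ((L:ℝ) + 1) := by positivity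
            nlinarith [mul_le_mul_of_nonneg_left (add_le_add htopb hbq) hLp]
  -- Hölder over levels
  set Z : ℝ := ∑ L ∈ range (N + 1), 1 / ((L:ℝ) + 1) ^ 2 with hZ
  have hZ2 : Z ≤ 2 := by
    have : ∀ M : ℕ, ∑ L ∈ range (M + 1), 1 / ((L:ℝ) + 1) ^ 2 ≤ 2 - 1 / ((M:ℝ) + 1) := by
      intro M
      induction M with
      | zero => norm_num
      | succ M ih =>
        rw [sum_range_succ]
        have hM : (0:ℝ) < (M:ℝ) + 1 := by positivity
        have : 1 / ((M:ℝ) + 1) - 1 / ((M:ℝ) + 1 + 1) - 1 / ((M:ℝ) + 1 + 1) ^ 2 =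
            1 / (((M:ℝ) + 1) * ((M:ℝ) + 1 + 1) ^ 2) := by field_simp; ring
        have : 0 ≤ 1 / (((M:ℝ) + 1) * ((M:ℝ) + 1 + 1) ^ 2) := by positivity
        push_cast
        linarith
    exact (this N).trans (by linarith [show (0:ℝ) ≤ 1 / ((N:ℝ) + 1) by positivity])
  have hZ0 : 0 < Z := sum_pos (fun L _ => by positivity) ⟨0, by simp⟩
  set w : ℕ → ℝ := fun L => 1 / ((L:ℝ) + 1) ^ 2 / Z with hw
  have hw0 : ∀ L, 0 < w L := fun L => div_pos (by positivity) hZ0
  have hh := Real.rpow_arith_mean_le_arith_mean_rpow (range (N + 1)) w (fun L => X L / w L)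
    (fun L _ => (hw0 L).le) (by rw [hw, ← sum_div]; exact div_self hZ0.ne')
    (fun L _ => div_nonneg (hX0 L) (hw0 L).le) hq1
  have hsimp : ∑ L ∈ range (N + 1), w L * (X L / w L) = ∑ L ∈ range (N + 1), X L :=
    sum_congr rfl fun L _ => mul_div_cancel₀ _ (hw0 L).ne'
  rw [hsimp] at hh
  calc mx n (Stot u l) ^ q ≤ (∑ L ∈ range (N + 1), X L) ^ q :=
        Real.rpow_le_rpow (mx_nonneg _ _) (hM.trans hsum) (by linarith)
    _ ≤ _ := hh
    _ ≤ ∑ L ∈ range (N + 1), 2 * ((L:ℝ) + 1) ^ 2 * X L ^ q := by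
        refine sum_le_sum fun L hL => ?_
        have hwle : w L ≤ 1 := by
          rw [hw, div_le_one hZ0]
          exact single_le_sum (s := range (N + 1)) (f := fun L : ℕ => 1 / ((L:ℝ) + 1) ^ 2)
            (fun L _ => by positivity) hL
        have hwi : 1 / w L ≤ 2 * ((L:ℝ) + 1) ^ 2 := by
          rw [hw, one_div_div, div_div_eq_mul_div, div_one]
          exact mul_le_mul_of_nonneg_right hZ2 (by positivity)
        have hwp : w L * (1 / w L) ^ q ≤ 1 / w L := by
          have h1 : 1 ≤ 1 / w L := by rw [le_div_iff₀ (hw0 L)]; linarith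
          calc w L * (1 / w L) ^ q ≤ w L * (1 / w L) ^ (2:ℝ) :=
                mul_le_mul_of_nonneg_left (Real.rpow_le_rpow_of_exponent_le h1 hq2) (hw0 L).le
            _ = _ := by
                rw [Real.rpow_two]
                field_simp
        calc w L * (X L / w L) ^ q = w L * (1 / w L) ^ q * X L ^ q := by
              rw [div_eq_mul_one_div, Real.mul_rpow (hX0 L) (div_nonneg zero_le_one (hw0 L).le)]; ring
          _ ≤ _ := mul_le_mul_of_nonneg_right (hwp.trans hwi) (Real.rpow_nonneg (hX0 L) _)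
    _ ≤ _ := by
        rw [mul_sum]
        refine sum_le_sum fun L _ => ?_
        calc _ ≤ _ := mul_le_mul_of_nonneg_left (hXq L) (by positivity)
          _ = _ := by ring

/-- The transition matrix. -/
def mat : Matrix S S ℝ := Matrix.of C.P

theorem ev_endval [DecidableEq S] (u : S → S → ℕ → ℝ)
    (hadd : ∀ x y z i, u x y i + u y z i = u x z i) (T : ℕ) :
    ∀ (x : S) (φ : (ℕ → ℝ) → ℝ),
    ev C T x (fun l => φ (Stot u l)) = ∑ y, (mat C ^ T) x y * φ (pre (u x y)) := by
  induction T with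
  | zero =>
    intro x φ
    have h0 : ∀ i, u x x i = 0 := fun i => by linarith [hadd x x x i]
    have : pre (u x x) = fun _ => 0 := funext fun a => sum_eq_zero fun i _ => h0 i
    simp [ev, Matrix.one_apply, this]
    rfl
  | succ T ih =>
    intro x φ
    rw [ev, pow_succ']
    simp only [Matrix.mul_apply, sum_mul]
    rw [sum_comm]
    refine sum_congr rfl fun y _ => ?_
    have h := ih y (fun v => φ (fun a => pre (u x y) a + v a))
    have e : (fun l => φ (Stot u ((x, y) :: l))) =
        fun l => φ (fun a => pre (u x y) a + Stot u l a) := rfl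
    rw [e, h, mul_sum]
    refine sum_congr rfl fun z _ => ?_
    have : (fun a => pre (u x y) a + pre (u y z) a) = pre (u x z) := by
      funext a
      simp only [pre, ← sum_add_distrib]
      exact sum_congr rfl fun i _ => hadd x y z i
    rw [this]
    simp only [mat, Matrix.of_apply]
    ring

theorem ev_partial_le {F : List (S × S) → ℝ} (hk0 : 0 ≤ k) (hk1 : k < 1) (hF : Good F)
    (h0 : ∀ l, 0 ≤ F l) (M : ℕ) :
    ∑ T ∈ range M, (1 - k) * k ^ T * evs C T F ≤ Egs C k F := by
  simp only [Egs, evs, mul_sum]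
  rw [sum_comm]
  refine sum_le_sum fun x _ => ?_
  calc ∑ T ∈ range M, (1 - k) * k ^ T * (C.pi x * ev C T x F)
      = C.pi x * ∑ T ∈ range M, (1 - k) * k ^ T * ev C T x F := by
        rw [mul_sum]; exact sum_congr rfl fun T _ => by ring
    _ ≤ _ := by
        refine mul_le_mul_of_nonneg_left ?_ (C.pi_nonneg x)
        refine (summable_ev C hk0 hk1 hF x).sum_le_tsum _ fun T _ => ?_
        refine mul_nonneg (mul_nonneg (by linarith) (pow_nonneg hk0 T)) ?_
        rw [← ev_const C T x 0]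
        exact ev_mono C T x _ _ fun l _ => h0 l

/-- Constant of the class summation. -/
noncomputable def cq (q : ℝ) : ℝ :=
  ∑' L : ℕ, ((L:ℝ) + 1) ^ 3 * (4000000 * ((2:ℝ) ^ (8 * q / 9 - 1)) ^ L + (1 / 2) ^ L)

theorem horizon_bound (u : S → S → ℕ → ℝ) (hu : ∀ x y i, u y x i = -u x y i) {q : ℝ}
    (hq1 : 1 ≤ q) (hq : q < 9 / 8) (hk0 : 0 ≤ k) (hk1 : k < 1) (M : ℕ) :
    (1 - k) * ∑ T ∈ range M, (1 - k) * k ^ T * evs C T (fun l => mx n (Stot u l) ^ q) ≤
      80 * cq q * ∑ x, ∑ y, C.pi x * C.P x y * (∑ i ∈ range n, |u x y i|) ^ q := by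
  classical
  set W : S → S → ℝ := fun x y => ∑ i ∈ range n, |u x y i| with hW
  set J : Finset ℤ := (univ : Finset (S × S)).image (fun e => cls (W e.1 e.2)) with hJdef
  have hJ : ∀ x y, cls (∑ i ∈ range n, |u x y i|) ∈ J := fun x y =>
    mem_image.2 ⟨(x, y), mem_univ _, rfl⟩
  set G : ℕ → ℤ → List (S × S) → ℝ := fun L j l =>
    lev L (cnt (classEdge n u hu j) l) * mx n (Sg (classEdge n u hu j) l) ^ q +
      (1 / 2) ^ L * cnt (classEdge n u hu j) l with hG
  have hG0 : ∀ L j l, 0 ≤ G L j l := fun L j l =>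
    add_nonneg (mul_nonneg (lev_nonneg _ _) (Real.rpow_nonneg (mx_nonneg _ _) _))
      (mul_nonneg (by positivity) (cnt_nonneg _ _))
  have gN : ∀ j, Good (cnt (classEdge n u hu j)) := fun j => by
    refine ⟨1, zero_le_one, fun l => ?_⟩
    rw [abs_of_nonneg (cnt_nonneg _ l), one_mul]
    have h := cnt_le_length (classEdge n u hu j) l
    have h1 : (1:ℝ) ≤ (l.length : ℝ) + 1 := by linarith [(l.length.cast_nonneg : (0:ℝ) ≤ _)]
    nlinarith [le_self_pow₀ h1 (three_ne_zero : (3:ℕ) ≠ 0)]
  have gM : ∀ L j, Good (fun l => lev L (cnt (classEdge n u hu j) l) *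
      mx n (Sg (classEdge n u hu j) l) ^ q) := fun L j => by
    refine ⟨1, zero_le_one, fun l => ?_⟩
    have hM := mx_nonneg n (Sg (classEdge n u hu j) l)
    rw [abs_of_nonneg (mul_nonneg (lev_nonneg _ _) (Real.rpow_nonneg hM _)), one_mul]
    have h1 : (1:ℝ) ≤ (l.length : ℝ) + 1 := by linarith [(l.length.cast_nonneg : (0:ℝ) ≤ _)]
    calc _ ≤ mx n (Sg (classEdge n u hu j) l) ^ q :=
          mul_le_of_le_one_left (Real.rpow_nonneg hM _) (lev_le_one _ _)
      _ ≤ ((l.length : ℝ) + 1) ^ q := by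
          refine Real.rpow_le_rpow hM ?_ (by linarith)
          refine mx_le _ (by linarith) fun a ha => ?_
          linarith [Sg_le (classEdge n u hu j) l ha, cnt_le_length (classEdge n u hu j) l]
      _ ≤ ((l.length : ℝ) + 1) ^ (3:ℕ) := by
          rw [← Real.rpow_natCast]
          exact Real.rpow_le_rpow_of_exponent_le h1 (by push_cast; linarith)
  have gG : ∀ L j, Good (G L j) := fun L j => (gM L j).add ((gN j).smul _)
  have h1k : (0:ℝ) ≤ 1 - k := by linarith
  have step1 : ∀ T ∈ range M, evs C T (fun l => mx n (Stot u l) ^ q) ≤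
      20 * ∑ L ∈ range (M + 1), ((L:ℝ) + 1) ^ 3 *
        ∑ j ∈ J, ((2:ℝ) ^ (j + 1)) ^ q * evs C T (G L j) := by
    intro T hT
    simp only [evs]
    calc _ ≤ ∑ x, C.pi x * ev C T x (fun l => 20 * ∑ L ∈ range (M + 1), ((L:ℝ) + 1) ^ 3 *
          ∑ j ∈ J, ((2:ℝ) ^ (j + 1)) ^ q * G L j l) := by
          refine sum_le_sum fun x _ => mul_le_mul_of_nonneg_left ?_ (C.pi_nonneg x)
          refine ev_mono C T x _ _ fun l hl => ?_
          exact pointwise u hu J hJ hq1 (by linarith) M l (by simp at hT; omega)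
      _ = _ := by
          simp only [ev_smul, ev_sum, mul_sum]
          rw [sum_comm]
          refine sum_congr rfl fun L _ => ?_
          rw [sum_comm]
          exact sum_congr rfl fun j _ => sum_congr rfl fun x _ => by ring
  have step2 : ∀ L j, (1 - k) * Egs C k (G L j) ≤
      (4000000 * ((2:ℝ) ^ (8 * q / 9 - 1)) ^ L + (1 / 2) ^ L) *
        edgeMass (classEdge n u hu j) C := by
    intro L j
    have e : Egs C k (G L j) = Egs C k (fun l => lev L (cnt (classEdge n u hu j) l) *
        mx n (Sg (classEdge n u hu j) l) ^ q) + (1 / 2) ^ L * Egs C k (cnt (classEdge n u hu j)) := by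
      simp only [Egs, hG, Eg_add C hk0 hk1 (gM L j) ((gN j).smul _), Eg_smul, mul_sum,
        ← sum_add_distrib]
      exact sum_congr rfl fun x _ => by ring
    rw [e, mul_add, add_mul]
    refine add_le_add (level_bound C _ hk0 hk1 hq1 (by linarith) L) ?_
    rw [mul_left_comm]
    exact mul_le_mul_of_nonneg_left (Egs_cnt C _ hk0 hk1) (by positivity)
  have hmass : ∑ j ∈ J, ((2:ℝ) ^ (j + 1)) ^ q * edgeMass (classEdge n u hu j) C ≤
      4 * ∑ x, ∑ y, C.pi x * C.P x y * W x y ^ q := by
    simp only [edgeMass, mul_sum]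
    rw [sum_comm]
    refine sum_le_sum fun x _ => ?_
    rw [sum_comm]
    refine sum_le_sum fun y _ => ?_
    have hW0 : 0 ≤ W x y := sum_nonneg fun i _ => abs_nonneg _
    have hpp : 0 ≤ C.pi x * C.P x y := mul_nonneg (C.pi_nonneg x) (C.P_nonneg x y)
    rw [sum_eq_single_of_mem _ (hJ x y)]
    · by_cases hw : 0 < W x y
      · simp only [classEdge, hW] at hw ⊢
        simp only [hw, true_and, if_true, mul_one]
        have hlog : (2:ℝ) ^ (cls (∑ i ∈ range n, |u x y i|)) ≤ ∑ i ∈ range n, |u x y i| :=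
          Int.zpow_log_le_self one_lt_two hw
        calc _ ≤ (2 * ∑ i ∈ range n, |u x y i|) ^ q * (C.pi x * C.P x y) := by
              refine mul_le_mul_of_nonneg_right (Real.rpow_le_rpow (by positivity) ?_ (by linarith))
                hpp
              rw [zpow_add_one₀ two_ne_zero]; linarith
          _ ≤ _ := by
              rw [Real.mul_rpow (by norm_num) hw.le]
              have h2q : (2:ℝ) ^ q ≤ 4 := by
                calc (2:ℝ) ^ q ≤ 2 ^ (2:ℝ) :=
                      Real.rpow_le_rpow_of_exponent_le one_le_two (by linarith)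
                  _ = 4 := by norm_num
              nlinarith [mul_nonneg (mul_nonneg hpp (Real.rpow_nonneg hw.le q)) (sub_nonneg.2 h2q)]
      · simp only [classEdge, hW] at hw ⊢
        simp only [hw, false_and, if_false, mul_zero]
        exact mul_nonneg (by norm_num) (mul_nonneg hpp (Real.rpow_nonneg hW0 _))
    · intro j _ hj
      simp only [classEdge, Ne.symm hj, and_false, if_false, mul_zero]
  set R : ℝ := ∑ x, ∑ y, C.pi x * C.P x y * W x y ^ q with hR
  have hR0 : 0 ≤ R := sum_nonneg fun x _ => sum_nonneg fun y _ =>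
    mul_nonneg (mul_nonneg (C.pi_nonneg x) (C.P_nonneg x y))
      (Real.rpow_nonneg (sum_nonneg fun i _ => abs_nonneg _) _)
  have hr1 : (2:ℝ) ^ (8 * q / 9 - 1) < 1 :=
    Real.rpow_lt_one_of_one_lt_of_neg one_lt_two (by linarith)
  have hcs : Summable (fun L : ℕ =>
      ((L:ℝ) + 1) ^ 3 * (4000000 * ((2:ℝ) ^ (8 * q / 9 - 1)) ^ L + (1 / 2) ^ L)) := by
    have hb : ∀ r : ℝ, 0 ≤ r → r < 1 → Summable (fun L : ℕ => ((L:ℝ) + 1) ^ 3 * r ^ L) := by
      intro r h0 h1
      have hs : Summable (fun L : ℕ => 8 * ((L:ℝ) ^ 3 * r ^ L + r ^ L)) :=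
        ((summable_pow_mul_geometric_of_norm_lt_one 3
          (by rwa [Real.norm_eq_abs, abs_of_nonneg h0])).add
          (summable_geometric_of_lt_one h0 h1)).mul_left 8
      refine Summable.of_nonneg_of_le (fun L => by positivity) (fun L => ?_) hs
      have hp : ((L : ℝ) + 1) ^ 3 ≤ 8 * ((L : ℝ) ^ 3 + 1) := by
        have h : (0:ℝ) ≤ L := Nat.cast_nonneg _
        nlinarith [sq_nonneg ((L : ℝ) - 1), mul_nonneg h (sq_nonneg ((L : ℝ) - 1))]
      calc _ ≤ 8 * ((L : ℝ) ^ 3 + 1) * r ^ L := mul_le_mul_of_nonneg_right hp (by positivity)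
        _ = _ := by ring
    have h2 := ((hb _ (Real.rpow_nonneg (by norm_num : (0:ℝ) ≤ 2) _) hr1).mul_left 4000000).add
      (hb (1 / 2) (by norm_num) (by norm_num))
    exact h2.congr fun L => by ring
  calc (1 - k) * ∑ T ∈ range M, (1 - k) * k ^ T * evs C T (fun l => mx n (Stot u l) ^ q)
      ≤ (1 - k) * ∑ T ∈ range M, (1 - k) * k ^ T * (20 * ∑ L ∈ range (M + 1), ((L:ℝ) + 1) ^ 3 *
        ∑ j ∈ J, ((2:ℝ) ^ (j + 1)) ^ q * evs C T (G L j)) :=
        mul_le_mul_of_nonneg_left (sum_le_sum fun T hT =>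
          mul_le_mul_of_nonneg_left (step1 T hT) (mul_nonneg h1k (pow_nonneg hk0 T))) h1k
    _ = 20 * ∑ L ∈ range (M + 1), ((L:ℝ) + 1) ^ 3 * ∑ j ∈ J, ((2:ℝ) ^ (j + 1)) ^ q *
        ((1 - k) * ∑ T ∈ range M, (1 - k) * k ^ T * evs C T (G L j)) := by
        simp only [mul_sum]
        rw [sum_comm]
        refine sum_congr rfl fun L _ => ?_
        rw [sum_comm]
        exact sum_congr rfl fun j _ => sum_congr rfl fun T _ => by ring
    _ ≤ 20 * ∑ L ∈ range (M + 1), ((L:ℝ) + 1) ^ 3 * ∑ j ∈ J, ((2:ℝ) ^ (j + 1)) ^ q *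
        ((4000000 * ((2:ℝ) ^ (8 * q / 9 - 1)) ^ L + (1 / 2) ^ L) *
          edgeMass (classEdge n u hu j) C) := by
        refine mul_le_mul_of_nonneg_left (sum_le_sum fun L _ => mul_le_mul_of_nonneg_left
          (sum_le_sum fun j _ => mul_le_mul_of_nonneg_left ?_ (by positivity)) (by positivity))
          (by norm_num)
        exact le_trans (mul_le_mul_of_nonneg_left
          (ev_partial_le C hk0 hk1 (gG L j) (hG0 L j) M) h1k) (step2 L j)
    _ = 20 * (∑ L ∈ range (M + 1), ((L:ℝ) + 1) ^ 3 *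
        (4000000 * ((2:ℝ) ^ (8 * q / 9 - 1)) ^ L + (1 / 2) ^ L)) *
        ∑ j ∈ J, ((2:ℝ) ^ (j + 1)) ^ q * edgeMass (classEdge n u hu j) C := by
        simp only [mul_sum, sum_mul]
        rw [sum_comm]
        exact sum_congr rfl fun L _ => sum_congr rfl fun j _ => by ring
    _ ≤ 20 * cq q * (4 * R) := by
        refine mul_le_mul (mul_le_mul_of_nonneg_left ?_ (by norm_num)) hmass ?_ ?_
        · exact hcs.sum_le_tsum _ fun L _ => by positivity
        · exact sum_nonneg fun j _ => mul_nonneg (by positivity) (sum_nonneg fun x _ =>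
            sum_nonneg fun y _ => mul_nonneg (mul_nonneg (C.pi_nonneg x) (C.P_nonneg x y))
              ((classEdge n u hu j).c0 x y))
        · exact mul_nonneg (by norm_num) (tsum_nonneg fun L => by positivity)
    _ = _ := by simp only [hR, hW]; ring

theorem mat_nonneg [DecidableEq S] (T : ℕ) (x y : S) : 0 ≤ (mat C ^ T) x y := by
  induction T generalizing x y with
  | zero => simp only [pow_zero, Matrix.one_apply]; split_ifs <;> norm_num
  | succ T ih =>
    rw [pow_succ']
    exact sum_nonneg fun z _ => mul_nonneg (C.P_nonneg x z) (ih z y)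

theorem mat_row [DecidableEq S] (T : ℕ) (x : S) : ∑ y, (mat C ^ T) x y = 1 := by
  induction T generalizing x with
  | zero => simp [Matrix.one_apply]
  | succ T ih =>
    simp only [pow_succ', Matrix.mul_apply]
    rw [sum_comm]
    calc ∑ z, ∑ y, mat C x z * (mat C ^ T) z y = ∑ z, C.P x z := by
          refine sum_congr rfl fun z _ => ?_
          rw [← mul_sum, ih z, mul_one]; rfl
      _ = 1 := C.P_sum x

theorem mat_stat [DecidableEq S] (T : ℕ) (y : S) : ∑ x, C.pi x * (mat C ^ T) x y = C.pi y := by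
  induction T generalizing y with
  | zero => simp [Matrix.one_apply]
  | succ T ih =>
    simp only [pow_succ', Matrix.mul_apply, mul_sum]
    rw [sum_comm]
    calc ∑ z, ∑ x, C.pi x * (mat C x z * (mat C ^ T) z y)
        = ∑ z, C.pi z * (mat C ^ T) z y := by
          refine sum_congr rfl fun z _ => ?_
          calc ∑ x, C.pi x * (mat C x z * (mat C ^ T) z y)
              = ∑ x, C.pi z * C.P z x * (mat C ^ T) z y := by
                refine sum_congr rfl fun x _ => ?_
                simp only [mat, Matrix.of_apply]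
                rw [← mul_assoc, C.balance x z]
            _ = _ := by rw [← sum_mul, ← mul_sum, C.P_sum, mul_one]
      _ = _ := ih y

/-- Markov type of the summing operator, for one chain. -/
theorem chain_markovType [DecidableEq S] {q : ℝ} (hq1 : 1 ≤ q) (hq : q < 9 / 8) (f : S → Fin n → ℝ)
    {t : ℕ} (ht : 1 ≤ t) :
    ∑ x, ∑ y, C.pi x * (mat C ^ t) x y * ‖summing (f y - f x)‖ ^ q ≤
      10240 * cq q * t * ∑ x, ∑ y, C.pi x * C.P x y * (∑ i, |f y i - f x i|) ^ q := by
  set u : S → S → ℕ → ℝ := fun x y => ext0 (f y - f x) with hu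
  have hanti : ∀ x y i, u y x i = -u x y i := fun x y i => by
    simp only [hu, ext0, Pi.sub_apply]; split_ifs <;> ring
  have hadd : ∀ x y z i, u x y i + u y z i = u x z i := fun x y z i => by
    simp only [hu, ext0, Pi.sub_apply]; split_ifs <;> ring
  set B : ℕ → ℝ := fun T => ∑ x, ∑ y, C.pi x * (mat C ^ T) x y * ‖summing (f y - f x)‖ ^ q with hB
  have hB0 : ∀ T, 0 ≤ B T := fun T => sum_nonneg fun x _ => sum_nonneg fun y _ =>
    mul_nonneg (mul_nonneg (C.pi_nonneg x) (mat_nonneg C T x y))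
      (Real.rpow_nonneg (norm_nonneg _) _)
  have hev : ∀ T, evs C T (fun l => mx n (Stot u l) ^ q) = B T := fun T => by
    simp only [evs, hB]
    refine sum_congr rfl fun x _ => ?_
    rw [ev_endval C u hadd T x (fun v => mx n v ^ q), mul_sum]
    refine sum_congr rfl fun y _ => ?_
    rw [summing_norm]
    simp only [hu]; ring
  set R : ℝ := ∑ x, ∑ y, C.pi x * C.P x y * (∑ i, |f y i - f x i|) ^ q with hR
  have hR' : ∑ x, ∑ y, C.pi x * C.P x y * (∑ i ∈ range n, |u x y i|) ^ q = R := by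
    simp only [hu, sum_ext0, Pi.sub_apply, hR]
  have htr : (0:ℝ) < t := by exact_mod_cast ht
  have ht1 : (1:ℝ) ≤ t := by exact_mod_cast ht
  set k : ℝ := 1 - 1 / (4 * t) with hk
  have h4t : (0:ℝ) < 1 / (4 * t) := by positivity
  have hk1 : k < 1 := by rw [hk]; linarith
  have hk0 : 0 ≤ k := by
    rw [hk]
    have : 1 / (4 * (t:ℝ)) ≤ 1 := by rw [div_le_one (by positivity)]; linarith
    linarith
  have hh := horizon_bound (n := n) C u hanti hq1 hq hk0 hk1 (2 * t)
  rw [hR'] at hh
  simp only [hev] at hh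
  have hpow : ∀ T ∈ range (2 * t), (1:ℝ) / 2 ≤ k ^ T := by
    intro T hT
    have h := one_add_mul_le_pow (a := -(1 / (4 * (t:ℝ)))) (by linarith [hk0, hk]) T
    rw [← sub_eq_add_neg] at h
    refine le_trans ?_ h
    have hT' : (T:ℝ) ≤ 2 * t := by
      have : T ≤ 2 * t := (mem_range.1 hT).le
      exact_mod_cast this
    have : (T:ℝ) * (1 / (4 * t)) ≤ 1 / 2 := by
      calc (T:ℝ) * (1 / (4 * t)) ≤ 2 * t * (1 / (4 * t)) := mul_le_mul_of_nonneg_right hT' h4t.le
        _ = _ := by field_simp; ring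
    linarith
  have hsum : (1 / (4 * t)) * (1 / (4 * t)) * (1 / 2) * ∑ T ∈ range (2 * t), B T ≤ 80 * cq q * R := by
    refine le_trans ?_ hh
    rw [show (1:ℝ) - k = 1 / (4 * t) by rw [hk]; ring, mul_assoc, mul_assoc]
    refine mul_le_mul_of_nonneg_left ?_ h4t.le
    rw [mul_sum, mul_sum]
    refine sum_le_sum fun T hT => ?_
    rw [← mul_assoc]
    exact mul_le_mul_of_nonneg_right (mul_le_mul_of_nonneg_left (hpow T hT) h4t.le) (hB0 T)
  have htri : ∀ v, B t ≤ 4 * (B (t + v) + B v) := by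
    intro v
    have hp : ∀ a b c : S, ‖summing (f b - f a)‖ ^ q ≤
        4 * (‖summing (f c - f a)‖ ^ q + ‖summing (f c - f b)‖ ^ q) := by
      intro a b c
      have e : summing (f b - f a) = summing (f c - f a) - summing (f c - f b) := by
        funext i
        simp only [summing, Pi.sub_apply, ← sum_sub_distrib]
        exact sum_congr rfl fun j _ => by ring
      have h0 := norm_nonneg (summing (f c - f a))
      have h1 := norm_nonneg (summing (f c - f b))
      calc ‖summing (f b - f a)‖ ^ q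
          ≤ (2 * max ‖summing (f c - f a)‖ ‖summing (f c - f b)‖) ^ q := by
            refine Real.rpow_le_rpow (norm_nonneg _) ?_ (by linarith)
            rw [e]
            refine (norm_sub_le _ _).trans ?_
            linarith [le_max_left ‖summing (f c - f a)‖ ‖summing (f c - f b)‖,
              le_max_right ‖summing (f c - f a)‖ ‖summing (f c - f b)‖]
        _ ≤ 4 * max ‖summing (f c - f a)‖ ‖summing (f c - f b)‖ ^ q := by
            rw [Real.mul_rpow (by norm_num) (le_max_of_le_left h0)]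
            refine mul_le_mul_of_nonneg_right ?_ (Real.rpow_nonneg (le_max_of_le_left h0) _)
            calc (2:ℝ) ^ q ≤ 2 ^ (2:ℝ) :=
                  Real.rpow_le_rpow_of_exponent_le one_le_two (by linarith)
              _ = 4 := by norm_num
        _ ≤ _ := by
            refine mul_le_mul_of_nonneg_left ?_ (by norm_num)
            rcases max_cases ‖summing (f c - f a)‖ ‖summing (f c - f b)‖ with ⟨hm, _⟩ | ⟨hm, _⟩ <;>
              rw [hm] <;> linarith [Real.rpow_nonneg h0 q, Real.rpow_nonneg h1 q]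
    simp only [hB]
    calc _ = ∑ x, ∑ y, ∑ z,
          C.pi x * (mat C ^ t) x y * (mat C ^ v) y z * ‖summing (f y - f x)‖ ^ q := by
          refine sum_congr rfl fun x _ => sum_congr rfl fun y _ => ?_
          rw [← sum_mul, ← mul_sum, mat_row, mul_one]
      _ ≤ ∑ x, ∑ y, ∑ z, C.pi x * (mat C ^ t) x y * (mat C ^ v) y z *
            (4 * (‖summing (f z - f x)‖ ^ q + ‖summing (f z - f y)‖ ^ q)) :=
          sum_le_sum fun x _ => sum_le_sum fun y _ => sum_le_sum fun z _ =>
            mul_le_mul_of_nonneg_left (hp x y z)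
              (mul_nonneg (mul_nonneg (C.pi_nonneg x) (mat_nonneg C t x y)) (mat_nonneg C v y z))
      _ = _ := by
          simp only [mul_add, sum_add_distrib]
          congr 1
          · rw [mul_sum]
            refine sum_congr rfl fun x _ => ?_
            rw [sum_comm, mul_sum]
            refine sum_congr rfl fun z _ => ?_
            rw [pow_add, Matrix.mul_apply, mul_sum, sum_mul, mul_sum]
            exact sum_congr rfl fun y _ => by ring
          · rw [sum_comm, mul_sum]
            refine sum_congr rfl fun y _ => ?_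
            rw [sum_comm, mul_sum]
            refine sum_congr rfl fun z _ => ?_
            rw [← mat_stat C t y, sum_mul, sum_mul, mul_sum]
            exact sum_congr rfl fun x _ => by ring
  have havg : (t:ℝ) * B t ≤ 4 * ∑ T ∈ range (2 * t), B T := by
    calc (t:ℝ) * B t = ∑ v ∈ range t, B t := by simp
      _ ≤ ∑ v ∈ range t, 4 * (B (t + v) + B v) := sum_le_sum fun v _ => htri v
      _ = _ := by rw [← mul_sum, sum_add_distrib, two_mul, sum_range_add, add_comm]
  show B t ≤ _
  have h2 : ∑ T ∈ range (2 * t), B T ≤ 80 * cq q * R * (32 * t ^ 2) := by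
    have := mul_le_mul_of_nonneg_right hsum (by positivity : (0:ℝ) ≤ 32 * t ^ 2)
    refine le_trans (le_of_eq ?_) this
    field_simp
    ring
  have h3 : (t:ℝ) * B t ≤ (t:ℝ) * (10240 * cq q * t * R) := by nlinarith [havg, h2]
  exact le_of_mul_le_mul_left h3 htr

end Vale.Agent.P125.GC
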